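import Mathlib

namespace Vale.Agent.P344

open Finset

/-- `Der A c B`: starting from the already available values `A`, a sequence of at most `c` gates
`u + v`, `u - v`, `a • u` (each applied to available or previously computed values) makes
every element of `B` available. -/
inductive Der {V : Type} [AddCommGroup V] [Module ℂ V] : Set V → ℕ → Set V → Prop
  | done {A B : Set V} {c : ℕ} : B ⊆ A → Der A c B
  | add {A B : Set V} {c : ℕ} {u v : V} :
      u ∈ A → v ∈ A → Der (insert (u + v) A) c B → Der A (c + 1) B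
  | sub {A B : Set V} {c : ℕ} {u v : V} :
      u ∈ A → v ∈ A → Der (insert (u - v) A) c B → Der A (c + 1) B
  | smul {A B : Set V} {c : ℕ} {u : V} (a : ℂ) :
      u ∈ A → Der (insert (a • u) A) c B → Der A (c + 1) B

section
variable {V : Type} [AddCommGroup V] [Module ℂ V]

theorem Der.bind {A B C : Set V} {c c' : ℕ} (h : Der A c B)
    (k : ∀ A', A ⊆ A' → B ⊆ A' → Der A' c' C) : ∀ A₀, A ⊆ A₀ → ∀ d, c + c' ≤ d → Der A₀ d C := by
  have up : ∀ {A C : Set V} {c : ℕ}, Der A c C → ∀ d, c ≤ d → Der A d C := by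
    intro A C c h
    induction h with
    | done h => exact fun d _ => .done h
    | add hu hv _ ih => intro d hd; obtain ⟨d, rfl⟩ : ∃ e, d = e + 1 := ⟨d - 1, by omega⟩
                        exact .add hu hv (ih d (by omega))
    | sub hu hv _ ih => intro d hd; obtain ⟨d, rfl⟩ : ∃ e, d = e + 1 := ⟨d - 1, by omega⟩
                        exact .sub hu hv (ih d (by omega))
    | smul a hu _ ih => intro d hd; obtain ⟨d, rfl⟩ : ∃ e, d = e + 1 := ⟨d - 1, by omega⟩
                        exact .smul a hu (ih d (by omega))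
  induction h with
  | done h => exact fun A₀ h0 d hd => up (k A₀ h0 (h.trans h0)) d (by omega)
  | add hu hv _ ih =>
    intro A₀ h0 d hd; obtain ⟨d, rfl⟩ : ∃ e, d = e + 1 := ⟨d - 1, by omega⟩
    exact .add (h0 hu) (h0 hv) (ih (fun A' h1 h2 => k A' ((Set.subset_insert _ _).trans h1) h2) _
      (Set.insert_subset_insert h0) d (by omega))
  | sub hu hv _ ih =>
    intro A₀ h0 d hd; obtain ⟨d, rfl⟩ : ∃ e, d = e + 1 := ⟨d - 1, by omega⟩
    exact .sub (h0 hu) (h0 hv) (ih (fun A' h1 h2 => k A' ((Set.subset_insert _ _).trans h1) h2) _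
      (Set.insert_subset_insert h0) d (by omega))
  | smul a hu _ ih =>
    intro A₀ h0 d hd; obtain ⟨d, rfl⟩ : ∃ e, d = e + 1 := ⟨d - 1, by omega⟩
    exact .smul a (h0 hu) (ih (fun A' h1 h2 => k A' ((Set.subset_insert _ _).trans h1) h2) _
      (Set.insert_subset_insert h0) d (by omega))

theorem Der.seq {A B C : Set V} {c c' : ℕ} (h : Der A c B)
    (k : ∀ A', A ⊆ A' → B ⊆ A' → Der A' c' C) : Der A (c + c') C :=
  h.bind k A le_rfl _ le_rfl

theorem Der.mono {A B A' B' : Set V} {c d : ℕ} (h : Der A c B) (hA : A ⊆ A') (hB : B' ⊆ B)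
    (hc : c ≤ d) : Der A' d B' :=
  h.bind (c' := 0) (fun _ _ h2 => .done (hB.trans h2)) A' hA d hc

theorem Der.union {A B C : Set V} {c d : ℕ} (h : Der A c B) (h' : Der A d C) :
    Der A (c + d) (B ∪ C) :=
  h.seq fun _ h1 h2 => (h'.mono h1 le_rfl le_rfl).bind (c' := 0)
    (fun _ h3 h4 => .done (Set.union_subset (h2.trans h3) h4)) _ le_rfl _ le_rfl

theorem Der.fam {ι : Type} {A : Set V} {B : ι → Set V} {c : ℕ} (s : Finset ι)
    (h : ∀ i ∈ s, Der A c (B i)) : Der A (s.card * c) (⋃ i ∈ s, B i) := by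
  classical
  induction s using Finset.induction_on with
  | empty => exact .done (by simp)
  | insert a s ha ih =>
    rw [card_insert_of_notMem ha, set_biUnion_insert]
    exact ((h a (mem_insert_self _ _)).union (ih fun i hi => h i (mem_insert_of_mem hi))).mono
      le_rfl le_rfl (by rw [add_mul]; omega)

theorem Der.famU {ι : Type} [Fintype ι] {A : Set V} {B : ι → Set V} {c : ℕ}
    (h : ∀ i, Der A c (B i)) : Der A (Fintype.card ι * c) (⋃ i, B i) := by
  simpa using Der.fam (A := A) (B := B) univ fun i _ => h i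

theorem Der.range {ι : Type} [Fintype ι] {A : Set V} {f : ι → V} {c : ℕ}
    (h : ∀ i, Der A c {f i}) : Der A (Fintype.card ι * c) (Set.range f) :=
  (Der.famU h).mono le_rfl (by rintro _ ⟨i, rfl⟩; simp) le_rfl

theorem Der.mem {A : Set V} {v : V} (h : v ∈ A) : Der A 0 {v} := .done (by simpa using h)

theorem Der.add1 {A : Set V} {u v : V} {c d : ℕ} (h : Der A c {u}) (h' : Der A d {v}) :
    Der A (c + d + 1) {u + v} :=
  (h.union h').seq fun _ _ h2 => .add (u := u) (v := v) (h2 (by simp)) (h2 (by simp)) (.done (by simp))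

theorem Der.sub1 {A : Set V} {u v : V} {c d : ℕ} (h : Der A c {u}) (h' : Der A d {v}) :
    Der A (c + d + 1) {u - v} :=
  (h.union h').seq fun _ _ h2 => .sub (u := u) (v := v) (h2 (by simp)) (h2 (by simp)) (.done (by simp))

theorem Der.smul1 {A : Set V} {u : V} {c : ℕ} (a : ℂ) (h : Der A c {u}) :
    Der A (c + 1) {a • u} :=
  h.seq fun _ _ h2 => .smul (u := u) a (h2 (by simp)) (.done (by simp))

theorem Der.sum1 {ι : Type} {A : Set V} (h0 : (0 : V) ∈ A) (s : Finset ι) {f : ι → V} {c : ℕ}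
    (h : ∀ i ∈ s, Der A c {f i}) : Der A (s.card * (c + 1)) {∑ i ∈ s, f i} := by
  classical
  induction s using Finset.induction_on with
  | empty => exact .done (by simpa using h0)
  | insert a s ha ih =>
    rw [card_insert_of_notMem ha, sum_insert ha]
    exact ((h a (mem_insert_self _ _)).add1 (ih fun i hi => h i (mem_insert_of_mem hi))).mono
      le_rfl le_rfl (by rw [add_mul]; omega)

/-- matrix times array -/
def mv {ι κ : Type} [Fintype κ] (M : Matrix ι κ ℂ) (f : κ → V) : ι → V := fun i => ∑ j, M i j • f j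

theorem mv_mul {ι κ μ : Type} [Fintype κ] [Fintype μ] (M : Matrix ι κ ℂ) (N : Matrix κ μ ℂ)
    (f : μ → V) : mv (M * N) f = mv M (mv N f) := by
  funext i
  simp only [mv, Matrix.mul_apply, sum_smul, smul_sum, mul_smul]
  exact sum_comm
end

def Cost {ι κ : Type} [Fintype κ] (M : Matrix ι κ ℂ) (c : ℕ) : Prop :=
  ∀ (V : Type) [AddCommGroup V] [Module ℂ V] (A : Set V) (f : κ → V), (0 : V) ∈ A →
    Set.range f ⊆ A → Der A c (Set.range (mv M f))

variable {ι κ μ : Type} [Fintype κ] [Fintype μ]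

theorem Cost.le {M : Matrix ι κ ℂ} {c d : ℕ} (h : Cost M c) (hd : c ≤ d) : Cost M d :=
  fun V _ _ A f h0 hf => (h V A f h0 hf).mono le_rfl le_rfl hd

theorem Cost.mul {M : Matrix ι κ ℂ} {N : Matrix κ μ ℂ} {c d : ℕ} (h : Cost M c) (h' : Cost N d) :
    Cost (M * N) (c + d) := fun V _ _ A f h0 hf => by
  rw [mv_mul, add_comm]
  exact (h' V A f h0 hf).seq fun A' h1 h2 => h V A' _ (h1 h0) h2

theorem Cost.triv [Fintype ι] (M : Matrix ι κ ℂ) :
    Cost M (Fintype.card ι * (Fintype.card κ * 2)) := fun _ _ _ _ _ h0 hf =>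
  Der.range fun _ => Der.sum1 h0 univ fun j _ => (Der.mem (hf ⟨j, rfl⟩)).smul1 _

def IsMono (M : Matrix ι κ ℂ) : Prop :=
  ∃ (σ : ι → κ) (d : ι → ℂ), ∀ x y, (y = σ x → M x y = d x) ∧ (y ≠ σ x → M x y = 0)

theorem IsMono.cost [Fintype ι] {M : Matrix ι κ ℂ} (h : IsMono M) : Cost M (Fintype.card ι) := by
  obtain ⟨σ, d, h⟩ := h
  intro V _ _ A f _ hf
  refine (Der.range (c := 1) fun i => ?_).mono le_rfl le_rfl (by simp)
  have : mv M f i = d i • f (σ i) := by
    rw [mv, sum_eq_single (σ i), (h _ _).1 rfl]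
    · intro y _ hy; rw [(h _ _).2 hy, zero_smul]
    · simp
  rw [this]
  exact (Der.mem (hf ⟨_, rfl⟩)).smul1 _

theorem Cost.sub {ι' κ' : Type} [Fintype κ'] {M : Matrix ι κ ℂ} {c : ℕ} (h : Cost M c)
    (ρ : ι' → ι) {γ : κ' → κ} (hγ : Function.Injective γ) : Cost (M.submatrix ρ γ) c := by
  classical
  intro V _ _ A f h0 hf
  refine (h V A (Function.extend γ f 0) h0 ?_).mono le_rfl ?_ le_rfl
  · rintro _ ⟨j, rfl⟩
    by_cases hj : ∃ a, γ a = j
    · obtain ⟨a, rfl⟩ := hj; rw [hγ.extend_apply]; exact hf ⟨a, rfl⟩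
    · rw [Function.extend_apply' _ _ _ hj]; exact h0
  · rintro _ ⟨i, rfl⟩
    refine ⟨ρ i, ?_⟩
    simp only [mv, Matrix.submatrix_apply]
    symm
    refine sum_of_injOn γ hγ.injOn (by simp) (fun j _ hj => ?_) (fun a _ => by rw [hγ.extend_apply])
    rw [Function.extend_apply' _ _ _ (by simpa using hj)]; simp

theorem Cost.kron [DecidableEq μ] {M : Matrix ι κ ℂ} {c : ℕ} (h : Cost M c) :
    Cost (Matrix.of fun (x : ι × μ) (y : κ × μ) => if x.2 = y.2 then M x.1 y.1 else 0)
      (Fintype.card μ * c) := by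
  intro V _ _ A f h0 hf
  refine (Der.famU fun b : μ => h V A (fun j => f (j, b)) h0 ?_).mono le_rfl ?_ le_rfl
  · rintro _ ⟨j, rfl⟩; exact hf ⟨_, rfl⟩
  · rintro _ ⟨⟨i, b⟩, rfl⟩
    refine Set.mem_iUnion.2 ⟨b, i, ?_⟩
    simp [mv, Fintype.sum_prod_type, ite_smul]

end Vale.Agent.P344
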