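import Vale.Agent.P344.Stage

namespace Vale.Agent.P344

open Finset Complex

set_option linter.unusedSectionVars false

section
variable {V G Γ : Type} [AddCommGroup V] [Module ℂ V] [Fintype G] [AddCommGroup Γ]
  (ac : Γ → (G → V) →ₗ[ℂ] (G → V)) (hadd : ∀ φ ψ f, ac φ (ac ψ f) = ac (φ + ψ) f)
  (hz : ∀ f, ac 0 f = f) (P : ℕ → Γ → Prop) (U : ℕ)
  (hP : ∀ n φ A f, P n φ → 0 ∈ A → Set.range f ⊆ A → Der A (n * U) (Set.range (ac φ f)))

abbrev Wt := ((T3 × T3) ⊕ (T3 × T3)) ⊕ ((T3 × T3 × T3) ⊕ (T3 × T3 × T3))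

include hadd hz hP in
theorem batch (Φ : Γ) (Col Row : T3 → Γ) (k : T3 → T3 → Γ) (h1 : ∀ S T, P 1 (k S T))
    (c15 : ∀ S T, P 15 (Col T - k S T)) (r15 : ∀ S T, P 15 (Row S - k S T))
    (c14 : ∀ S S' T : T3, Even (S.1 ∩ S'.1).card → P 14 (Col T - k S T - k S' T))
    (r14 : ∀ S T T' : T3, Even (T.1 ∩ T'.1).card → P 14 (Row S - k S T - k S T'))
    (c16 : ∀ T, P 16 (Col T)) (c16' : ∀ T, P 16 (-Col T))
    (r16 : ∀ T, P 16 (Row T)) (r16' : ∀ T, P 16 (-Row T))
    (m1 : ∀ S T, P 225 (Φ - Row S - Col T + k S T))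
    (m2 : ∀ S T, P 225 (Φ - Row S - Col T + k S T + k S T + k S T))
    (c240 : ∀ T, P 240 (Φ - Col T)) (r240 : ∀ T, P 240 (Φ - Row T))
    (f : Wt → G → V) (A : Set V) (h0 : 0 ∈ A) (hf : ∀ w, Set.range (f w) ⊆ A) :
    Der A ((512 * 560 ^ 3 + 511 * 560 ^ 2 + 512 * 560) * U + Fintype.card G * 10 ^ 13)
      (⋃ w, Set.range (ac Φ (f w))) := by
  let x : T3 → T3 → G → V := fun S T => f (.inl (.inl (S, T)))
  let y : T3 → T3 → G → V := fun S T => f (.inl (.inr (S, T)))
  let y' : T3 × T3 → G → V := fun p =>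
    ac (Φ - Row p.1 - Col p.2 + k p.1 p.2) (ac (Col p.2 - k p.1 p.2) (x p.1 p.2))
  let x' : T3 × T3 → G → V := fun p =>
    ac (Φ - Row p.1 - Col p.2 + k p.1 p.2 + k p.1 p.2 + k p.1 p.2)
      ((-1 : ℂ) • (ac (Col p.2 - k p.1 p.2) (y p.1 p.2) +
        ac (Col p.2 - k p.1 p.2 - k p.1 p.2) (x p.1 p.2)))
  let Yo : T3 × T3 → G → V := fun p => ac (Row p.1 - k p.1 p.2) (y' p) +
    ac (Row p.1 - k p.1 p.2 - k p.1 p.2) (x' p)
  have eY : ∀ p, (-1 : ℂ) • Yo p = ac Φ (y p.1 p.2) := by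
    rintro ⟨S, T⟩
    simp only [Yo, x', y', map_smul, map_add, hadd]
    rw [show Row S - k S T + (Φ - Row S - Col T + k S T + (Col T - k S T)) = Φ - k S T by abel,
      show Row S - k S T - k S T + (Φ - Row S - Col T + k S T + k S T + k S T + (Col T - k S T)) = Φ
        by abel, show Row S - k S T - k S T + (Φ - Row S - Col T + k S T + k S T + k S T +
        (Col T - k S T - k S T)) = Φ - k S T by abel]
    module
  have eX : ∀ p : T3 × T3, ac (k p.1 p.2) (Yo p) + (-1 : ℂ) • ac (Row p.1 - k p.1 p.2) (x' p) =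
      ac Φ (x p.1 p.2) := by
    rintro ⟨S, T⟩
    have : Yo (S, T) = (-1 : ℂ) • ac Φ (y S T) := by rw [← eY (S, T)]; module
    rw [this]
    simp only [x', map_smul, map_add, hadd]
    rw [show Row S - k S T + (Φ - Row S - Col T + k S T + k S T + k S T + (Col T - k S T)) =
        k S T + Φ by abel, show Row S - k S T + (Φ - Row S - Col T + k S T + k S T + k S T +
        (Col T - k S T - k S T)) = Φ by abel]
    module
  have up : ∀ {A : Set V} {v : V} {c : ℕ}, Der A c {v} → c ≤ 2000 → Der A 2000 {v} :=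
    fun h hc => h.mono le_rfl le_rfl hc
  refine ((Der.famU fun T => stage ac hadd hz P U hP (Col T) (fun S => k S T) (fun S => h1 S T)
      (fun S => c15 S T) (fun S S' => c14 S S' T) (c16 T) (c16' T) (fun S => x S T) (fun S => y S T)
      (fun p => f (.inr (.inl (T, p)))) A h0 (fun _ => hf _) (fun _ => hf _) (fun _ => hf _)).seq
      fun A1 s1 g1 =>
    (((Der.famU (B := fun p => Set.range (y' p)) fun p => prim0 ac P U hP (m1 p.1 p.2) (s1 h0)
        fun z => up (dm ?_ z) (by omega)).union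
      (Der.famU (B := fun p => Set.range (x' p)) fun p => prim0 ac P U hP (m2 p.1 p.2) (s1 h0)
        fun z => up ((dm ?_ z).smul1 (-1)) (by omega))).union
      ((Der.famU (B := fun p : T3 × T3 × T3 => Set.range (ac (Φ - Col p.1) (ac (Col p.1)
          (f (.inr (.inl p)))))) fun p => prim0 ac P U hP (c240 p.1) (s1 h0)
        fun z => up (dm ?_ z) (by omega)).union
      (Der.famU (B := fun p : T3 × T3 × T3 => Set.range (ac (Φ - Row p.1) (f (.inr (.inr p)))))
        fun p => prim0 ac P U hP (r240 p.1) (s1 h0)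
        fun z => up (dm ((hf _).trans s1) z) (by omega)))).seq fun A2 s2 g2 =>
    (Der.famU fun S => stage ac hadd hz P U hP (Row S) (fun T => k S T) (fun T => h1 S T)
      (fun T => r15 S T) (fun T T' => r14 S T T') (r16 S) (r16' S) (fun T => x' (S, T))
      (fun T => y' (S, T)) (fun p => ac (Φ - Row S) (f (.inr (.inr (S, p))))) A2 (s2 (s1 h0))
      (fun T => ?_) (fun T => ?_) (fun p => ?_)).seq fun A3 s3 g3 =>
    ((Der.famU (B := fun p : T3 × T3 => Set.range (ac (k p.1 p.2) (Yo p) +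
        (-1 : ℂ) • ac (Row p.1 - k p.1 p.2) (x' p))) fun p => prim ac P U hP (h1 p.1 p.2)
        (s3 (s2 (s1 h0))) (fun z => up (dm ?_ z) (by omega))
        (fun z => up ((dm ?_ z).smul1 (-1)) (by omega))).union
      (Der.famU (B := fun p : T3 × T3 => Set.range ((-1 : ℂ) • Yo p)) fun p =>
        Der.range fun z => (dm ?_ z).smul1 (-1))).seq (c' := 0) fun A4 s4 g4 => .done ?_).mono
      le_rfl le_rfl ?_
  · exact fun v hv => g1 (Set.mem_iUnion.2 ⟨p.2, .inl (.inl (Set.mem_iUnion.2 ⟨p.1, hv⟩))⟩)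
  · exact fun v hv => g1 (Set.mem_iUnion.2 ⟨p.2, .inl (.inr (Set.mem_iUnion.2 ⟨p.1, hv⟩))⟩)
  · exact fun v hv => g1 (Set.mem_iUnion.2 ⟨p.1, .inr (Set.mem_iUnion.2 ⟨p.2, hv⟩)⟩)
  · exact fun v hv => g2 (.inl (.inr (Set.mem_iUnion.2 ⟨(S, T), hv⟩)))
  · exact fun v hv => g2 (.inl (.inl (Set.mem_iUnion.2 ⟨(S, T), hv⟩)))
  · exact fun v hv => g2 (.inr (.inr (Set.mem_iUnion.2 ⟨(S, p), hv⟩)))
  · exact fun v hv => g3 (Set.mem_iUnion.2 ⟨p.1, .inl (.inr (Set.mem_iUnion.2 ⟨p.2, hv⟩))⟩)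
  · exact fun v hv => g3 (Set.mem_iUnion.2 ⟨p.1, .inl (.inl (Set.mem_iUnion.2 ⟨p.2, hv⟩))⟩)
  · exact fun v hv => g3 (Set.mem_iUnion.2 ⟨p.1, .inl (.inr (Set.mem_iUnion.2 ⟨p.2, hv⟩))⟩)
  · refine Set.iUnion_subset ?_
    rintro ((p | p) | (p | p)) v hv
    · exact g4 (.inl (Set.mem_iUnion.2 ⟨p, by rw [eX]; exact hv⟩))
    · exact g4 (.inr (Set.mem_iUnion.2 ⟨p, by rw [eY]; exact hv⟩))
    · exact s4 (s3 (g2 (.inr (.inl (Set.mem_iUnion.2 ⟨p, by rw [hadd, sub_add_cancel]; exact hv⟩)))))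
    · exact s4 (g3 (Set.mem_iUnion.2 ⟨p.1, .inr (Set.mem_iUnion.2 ⟨p.2, by
        rw [hadd, add_sub_cancel]; exact hv⟩)⟩))
  · simp only [Fintype.card_prod, card_T3]
    generalize Fintype.card G = N
    omega
end

def rowh (i : B) : (B × B → ZMod 2) →+ (B → ZMod 2) where
  toFun ξ j := ξ (i, j)
  map_zero' := rfl
  map_add' _ _ := rfl
def colh (j : B) : (B × B → ZMod 2) →+ (B → ZMod 2) where
  toFun ξ i := ξ (i, j)
  map_zero' := rfl
  map_add' _ _ := rfl
def eta (T : Finset B) : (B × B → ZMod 2) →+ (B → ZMod 2) :=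
  AddMonoidHom.pi fun i => (par T).comp (rowh i)
def zeta (S : Finset B) : (B × B → ZMod 2) →+ (B → ZMod 2) :=
  AddMonoidHom.pi fun j => (par S).comp (colh j)
def Phi (ξ : B × B → ZMod 2) : ZMod 4 := ∑ p, l4 (ξ p)

theorem swap_par (S T : Finset B) (ξ : B × B → ZMod 2) : par T (zeta S ξ) = par S (eta T ξ) := by
  simp only [par_apply, zeta, eta, AddMonoidHom.pi_apply, AddMonoidHom.comp_apply]
  exact sum_comm

theorem Phi_row (ξ : B × B → ZMod 2) : Phi ξ = ∑ i, wt univ (rowh i ξ) := Fintype.sum_prod_type _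
theorem Phi_col (ξ : B × B → ZMod 2) : Phi ξ = ∑ i, wt univ (colh i ξ) :=
  Fintype.sum_prod_type_right _

variable {J : Type} [Fintype J] [DecidableEq J]

noncomputable def acm {V ι : Type} [AddCommGroup V] [Module ℂ V] [Fintype ι] (M : Matrix ι ι ℂ) :
    (ι → V) →ₗ[ℂ] (ι → V) where
  toFun := mv M
  map_add' f g := by funext i; simp [mv, sum_add_distrib]
  map_smul' a f := by funext i; simp [mv, smul_sum, smul_comm a]

theorem mv_CM {V : Type} [AddCommGroup V] [Module ℂ V] (f : (J → ZMod 2) → V) (x : J → ZMod 2) :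
    mv (CM J) f x = ∑ z, cc z • f (x + z) := by
  refine Fintype.sum_equiv (Equiv.addLeft x) _ _ fun w => ?_
  simp [CM, ← add_assoc, zz]

theorem mv_Phi {V : Type} [AddCommGroup V] [Module ℂ V] (f : ((B × B) × J → ZMod 2) → V) :
    mv (Op (mult Phi)) f = mv (CM ((B × B) × J)) f := by
  funext x
  have : mult (J := J) Phi = fun ξ => ∏ a, (al + be * chi ξ (Pi.single a 1)) := by
    funext Ξ
    have e : ∀ (s : Finset (B × B)) (g : B × B → ZMod 4), e4 (∑ p ∈ s, g p) = ∏ p ∈ s, e4 (g p) := by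
      intro s g
      induction s using Finset.induction_on with
      | empty => simp [e4]
      | insert a s ha ih => rw [sum_insert ha, prod_insert ha, e4_add, ih]
    simp only [mult, Phi, e, e4_l4, chi, dotProduct_single, mul_one]
    exact (Fintype.prod_prod_type_right fun a : (B × B) × J => al + be * sg (Ξ a)).symm
  rw [this, mv_Op_K, mv_CM]
  refine sum_congr rfl fun z _ => ?_
  congr 3
  funext a; simp [Finset.sum_apply, Pi.single_apply]

theorem batch2 {c : ℕ} (h : Cost (CM J) c) {W : Type} [Fintype W] [DecidableEq W]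
    (hW : Fintype.card W = 2 ^ 29) :
    Cost (Matrix.of fun (x : ((B × B) × J → ZMod 2) × W) (y : ((B × B) × J → ZMod 2) × W) =>
      if x.2 = y.2 then CM ((B × B) × J) x.1 y.1 else 0)
      ((2 ^ 37 - 26880) * (2 ^ (255 * Fintype.card J) * c) + 2 ^ (256 * Fintype.card J) * 10 ^ 13) := by
  intro V _ _ A f h0 hf
  have cW : Fintype.card Wt = 351859200 := by simp [card_T3]
  obtain ⟨e⟩ : Nonempty (Wt ↪ W) := Function.Embedding.nonempty_of_card_le (by rw [cW, hW]; norm_num)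
  have hP : ∀ n (φ : (B × B → ZMod 2) → ZMod 4) (A : Set V) f, St n φ → 0 ∈ A → Set.range f ⊆ A →
      Der A (n * (2 ^ (255 * Fintype.card J) * c)) (Set.range (acm (Op (mult (J := J) φ)) f)) := by
    intro n φ A f hs h0 hf
    have := hs.cost h V A f h0 hf
    rwa [show Fintype.card ((B × B) × J) - Fintype.card J = 255 * Fintype.card J by
      simp; omega] at this
  have hr : ∀ w, Set.range (fun x => f (x, w)) ⊆ A := by rintro w _ ⟨x, rfl⟩; exact hf ⟨_, rfl⟩
  have w16 := wt_st univ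
  rw [card_univ, Fintype.card_fin] at w16
  have b := batch (fun φ : (B × B → ZMod 2) → ZMod 4 => acm (Op (mult (J := J) φ)))
    (fun φ ψ f => by simp only [acm, LinearMap.coe_mk, AddHom.coe_mk, mult_add, Op_mul, mv_mul])
    (fun f => by funext i; simp [acm, mult_zero, Op_one, mv, Matrix.one_apply]) St _ hP Phi
    (fun T ξ => -wt univ (eta T.1 ξ)) (fun S ξ => -wt univ (zeta S.1 ξ))
    (fun S T ξ => l4 (par S.1 (eta T.1 ξ)))
    (fun S T => (St.one (par S.1)).comp (eta T.1))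
    (fun S T => ((F1 S.2).neg.comp (eta T.1)).congr rfl fun ξ => by simp only [Pi.sub_apply]; ring)
    (fun S T => ((F1 T.2).neg.comp (zeta S.1)).congr rfl fun ξ => by
      simp only [Pi.sub_apply, swap_par]; ring)
    (fun S S' T he => ((F2 S.2 S'.2 he).neg.comp (eta T.1)).congr rfl fun ξ => by
      simp only [Pi.sub_apply]; ring)
    (fun S T T' he => ((F2 T.2 T'.2 he).neg.comp (zeta S.1)).congr rfl fun ξ => by
      simp only [Pi.sub_apply, swap_par]; ring)
    (fun T => w16.neg.comp _) (fun T => (w16.comp (eta T.1)).congr rfl fun ξ => by simp)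
    (fun T => w16.neg.comp _) (fun T => (w16.comp (zeta T.1)).congr rfl fun ξ => by simp)
    (fun S T => ?m1) (fun S T => ?m2)
    (fun T => (St.sum univ fun i _ => (F1 T.2).comp (rowh i)).congr (by simp) fun ξ => by
      simp only [Pi.sub_apply, Phi_row, sum_add_distrib, sub_neg_eq_add]; rfl)
    (fun T => (St.sum univ fun i _ => (F1 T.2).comp (colh i)).congr (by simp) fun ξ => by
      simp only [Pi.sub_apply, Phi_col, sum_add_distrib, sub_neg_eq_add]; rfl)
    (fun w x => f (x, e w)) A h0 (fun w => hr _)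
  case m1 =>
    refine ((F1 T.2).tens S.2 rowh).congr rfl fun ξ => ?_
    have e1 : ∑ i ∈ S.1, rowh i ξ = zeta S.1 ξ := by funext j; rw [Finset.sum_apply]; rfl
    simp only [Pi.sub_apply, Pi.add_apply, Phi_row, sum_add_distrib, sub_neg_eq_add, e1, swap_par]
    rw [show ∑ i, l4 (par T.1 (rowh i ξ)) = wt univ (eta T.1 ξ) from rfl]; ring
  case m2 =>
    refine (((F1 T.2).tens S.2 rowh).free ((par S.1).comp (eta T.1))).congr rfl fun ξ => ?_
    have e1 : ∑ i ∈ S.1, rowh i ξ = zeta S.1 ξ := by funext j; rw [Finset.sum_apply]; rfl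
    simp only [Pi.sub_apply, Pi.add_apply, Phi_row, sum_add_distrib, sub_neg_eq_add, e1, swap_par,
      AddMonoidHom.comp_apply]
    rw [show ∑ i, l4 (par T.1 (rowh i ξ)) = wt univ (eta T.1 ξ) from rfl]; ring
  have p256 : St 256 Phi := (St.sum univ fun i _ => w16.comp (rowh i)).congr (by simp) Phi_row
  refine (b.union (Der.fam (univ.map e)ᶜ fun w _ => hP _ _ A _ p256 h0 (hr w))).mono le_rfl ?_ ?_
  · rintro _ ⟨⟨x, w⟩, rfl⟩
    have : mv (Matrix.of fun (x : ((B × B) × J → ZMod 2) × W) (y : ((B × B) × J → ZMod 2) × W) =>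
        if x.2 = y.2 then CM ((B × B) × J) x.1 y.1 else 0) f (x, w) =
        acm (Op (mult (J := J) Phi)) (fun x => f (x, w)) x := by
      simp only [acm, LinearMap.coe_mk, AddHom.coe_mk, mv_Phi]
      simp [mv, Fintype.sum_prod_type, ite_smul]
    rw [this]
    by_cases hw : w ∈ univ.map e
    · obtain ⟨u, -, rfl⟩ := mem_map.1 hw
      exact .inl (Set.mem_iUnion.2 ⟨u, x, rfl⟩)
    · exact .inr (Set.mem_iUnion₂.2 ⟨w, mem_compl.2 hw, x, rfl⟩)
  · rw [card_compl, card_map, card_univ, cW, hW, Fintype.card_fun, ZMod.card,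
      show Fintype.card ((B × B) × J) = 256 * Fintype.card J by simp]
    generalize 2 ^ (255 * Fintype.card J) * c = U
    omega

end Vale.Agent.P344
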