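import Vale.Agent.P344.Rec

namespace Vale.Agent.P344

open Finset Complex Matrix

set_option linter.unusedSectionVars false

variable {ι ι' : Type} [Fintype ι] [DecidableEq ι] [Fintype ι'] [DecidableEq ι']

def IsC (C : Matrix ι ι ℂ) : Prop := ∃ τ : ι → ι, (∀ x, τ (τ x) = x) ∧ (∀ x, τ x ≠ x) ∧
  ∀ x y, C x y = (if y = x then al else 0) + (if y = τ x then be else 0)

def Lay : ℕ → Matrix ι ι ℂ → Prop
  | 0, M => IsMono M
  | T + 1, M => ∃ D C M', IsMono D ∧ IsC C ∧ Lay T M' ∧ M = D * C * M'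

theorem isMono_iff {α β : Type} [DecidableEq β] {M : Matrix α β ℂ} :
    IsMono M ↔ ∃ (σ : α → β) (d : α → ℂ), ∀ x y, M x y = if y = σ x then d x else 0 := by
  refine exists_congr fun σ => exists_congr fun d => forall_congr' fun x => forall_congr' fun y => ?_
  split_ifs with h <;> simp [h]

theorem IsMono.mul {M N : Matrix ι ι ℂ} (h : IsMono M) (h' : IsMono N) : IsMono (M * N) := by
  rw [isMono_iff] at *
  obtain ⟨σ, d, h⟩ := h; obtain ⟨σ', d', h'⟩ := h'
  exact ⟨σ' ∘ σ, fun x => d x * d' (σ x), fun x y => by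
    simp only [mul_apply, h, ite_mul, zero_mul, sum_ite_eq', mem_univ, if_true]; simp [h']⟩

theorem isMono_diag (d : ι → ℂ) : IsMono (diagonal d) :=
  isMono_iff.2 ⟨id, d, fun x y => by simp [diagonal_apply, eq_comm]⟩

theorem isMono_sel (ρ : ι → ι') : IsMono ((1 : Matrix ι' ι' ℂ).submatrix ρ id) :=
  isMono_iff.2 ⟨ρ, 1, fun x y => by simp [one_apply, eq_comm]⟩

theorem isMono_smul (a : ℂ) : IsMono (a • (1 : Matrix ι ι ℂ)) :=
  isMono_iff.2 ⟨id, fun _ => a, fun x y => by simp [one_apply, eq_comm]⟩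

theorem IsMono.blk {M N : Matrix ι ι ℂ} (h : IsMono M) (h' : IsMono N) :
    IsMono (fromBlocks M 0 0 N) := by
  rw [isMono_iff] at *
  obtain ⟨σ, d, h⟩ := h; obtain ⟨σ', d', h'⟩ := h'
  refine ⟨Sum.map σ σ', Sum.elim d d', ?_⟩
  rintro (x | x) (y | y) <;> simp [h, h']

theorem Lay.monoL {D M : Matrix ι ι ℂ} {T : ℕ} (hD : IsMono D) (h : Lay T M) : Lay T (D * M) := by
  cases T with
  | zero => exact hD.mul h
  | succ T =>
    obtain ⟨D', C, M', a, b, c, rfl⟩ := h
    exact ⟨D * D', C, M', hD.mul a, b, c, by simp only [Matrix.mul_assoc]⟩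

theorem Lay.mul {M N : Matrix ι ι ℂ} {T T' : ℕ} (h : Lay T M) (h' : Lay T' N) :
    Lay (T' + T) (M * N) := by
  induction T generalizing M with
  | zero => exact Lay.monoL h h'
  | succ T ih =>
    obtain ⟨D', C, M', a, b, c, rfl⟩ := h
    exact ⟨D', C, M' * N, a, b, ih c, by simp only [Matrix.mul_assoc]⟩

theorem Lay.cast {M N : Matrix ι ι ℂ} {T T' : ℕ} (h : Lay T M) (e : T = T') (e' : N = M) :
    Lay T' N := e ▸ e' ▸ h

theorem Lay.monoR {D M : Matrix ι ι ℂ} {T : ℕ} (h : Lay T M) (hD : IsMono D) : Lay T (M * D) :=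
  (h.mul (T' := 0) hD).cast (by simp) rfl

theorem IsMono.reidx {M : Matrix ι ι ℂ} (h : IsMono M) (e : ι' ≃ ι) : IsMono (M.submatrix e e) := by
  rw [isMono_iff] at *
  obtain ⟨σ, d, h⟩ := h
  exact ⟨e.symm ∘ σ ∘ e, d ∘ e, fun x y => by simp [h, Equiv.eq_symm_apply]⟩

theorem Lay.reidx {M : Matrix ι ι ℂ} {T : ℕ} (h : Lay T M) (e : ι' ≃ ι) :
    Lay T (M.submatrix e e) := by
  induction T generalizing M with
  | zero => exact IsMono.reidx h e
  | succ T ih =>
    obtain ⟨D', C, M', a, ⟨τ, b1, b2, b3⟩, c, rfl⟩ := h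
    refine ⟨D'.submatrix e e, C.submatrix e e, M'.submatrix e e, a.reidx e,
      ⟨e.symm ∘ τ ∘ e, by simp [b1], fun x => ?_, fun x y => ?_⟩, ih c,
      by simp only [submatrix_mul_equiv]⟩
    · simpa [Equiv.symm_apply_eq] using b2 (e x)
    · simp [b3, Equiv.eq_symm_apply]

theorem Lay.sub {M : Matrix ι ι ℂ} {T : ℕ} (h : Lay T M) (ρ : ι' → ι) (e : ι' ≃ ι) :
    Lay T (M.submatrix ρ e) := by
  refine ((h.reidx e).monoL (isMono_sel (e.symm ∘ ρ))).cast rfl ?_
  ext x y; simp [mul_apply, one_apply]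

theorem Lay.dbl {M : Matrix ι ι ℂ} {T : ℕ} (h : Lay T M) : Lay T (fromBlocks M 0 0 M) := by
  induction T generalizing M with
  | zero => exact IsMono.blk h h
  | succ T ih =>
    obtain ⟨D', C, M', a, ⟨τ, b1, b2, b3⟩, c, rfl⟩ := h
    refine ⟨fromBlocks D' 0 0 D', fromBlocks C 0 0 C, _, a.blk a, ⟨Sum.map τ τ, ?_, ?_, ?_⟩, ih c,
      by simp [fromBlocks_multiply]⟩
    · rintro (x | x) <;> simp [b1]
    · rintro (x | x) <;> simp [b2]
    · rintro (x | x) (y | y) <;> simp [b3]

noncomputable def sc (ι : Type) [DecidableEq ι] (a b c d : ℂ) : Matrix (ι ⊕ ι) (ι ⊕ ι) ℂ :=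
  fromBlocks (a • 1) (b • 1) (c • 1) (d • 1)

theorem sc_mul (a b c d a' b' c' d' : ℂ) : sc ι a b c d * sc ι a' b' c' d' =
    sc ι (a * a' + b * c') (a * b' + b * d') (c * a' + d * c') (c * b' + d * d') := by
  simp [sc, fromBlocks_multiply, smul_smul, add_smul, mul_comm]

theorem sc_C : IsC (sc ι al be be al) := by
  refine ⟨Sum.swap, by simp, ?_, ?_⟩
  · rintro (x | x) <;> simp
  · rintro (x | x) (y | y) <;> simp [sc, one_apply, eq_comm]

theorem sc_mono (a d : ℂ) : IsMono (sc ι a 0 0 d) := by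
  simpa [sc] using (isMono_smul (ι := ι) a).blk (isMono_smul d)

theorem lay_shear : Lay 3 (fromBlocks (1 : Matrix ι ι ℂ) (1 : Matrix ι ι ℂ) (0 : Matrix ι ι ℂ) 1) := by
  refine ⟨_, _, _, sc_mono 1 (5 * I / 4), sc_C, ⟨_, _, _, sc_mono 3 (-1), sc_C,
    ⟨_, _, _, sc_mono (-4 * al / 3) (-2 * al / 3), sc_C, sc_mono 1 (3 * I / 5), rfl⟩, rfl⟩, ?_⟩
  simp only [sc_mul]
  rw [show fromBlocks (1 : Matrix ι ι ℂ) (1 : Matrix ι ι ℂ) (0 : Matrix ι ι ℂ) 1 = sc ι 1 1 0 1 by
    simp [sc]]
  congr 1 <;> norm_num [al, be, Complex.ext_iff]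

noncomputable def Tens {κ α β : Type} [Fintype κ] (M : κ → Matrix α β ℂ) :
    Matrix (κ → α) (κ → β) ℂ := Matrix.of fun x y => ∏ i, M i (x i) (y i)

variable {κ : Type} [Fintype κ] [DecidableEq κ]

theorem Tens_mul (M N : κ → Matrix ι ι ℂ) : Tens (fun i => M i * N i) = Tens M * Tens N := by
  ext x y
  simp only [Tens, of_apply, mul_apply, ← prod_mul_distrib]
  rw [prod_univ_sum, Fintype.piFinset_univ]

theorem Tens_mono {M : κ → Matrix ι ι ℂ} (h : ∀ i, IsMono (M i)) : IsMono (Tens M) := by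
  simp only [isMono_iff] at *
  choose σ d h using h
  refine ⟨fun x i => σ i (x i), fun x => ∏ i, d i (x i), fun x y => ?_⟩
  simp only [Tens, of_apply, h, funext_iff]
  rw [prod_ite_zero]; simp

theorem half {τ : ι → ι} (h1 : ∀ x, τ (τ x) = x) (h2 : ∀ x, τ x ≠ x) :
    ∃ R : Finset ι, (∀ x, x ∈ R ∨ τ x ∈ R) ∧ 2 * R.card ≤ Fintype.card ι := by
  let e := Fintype.equivFin ι
  refine ⟨univ.filter fun x => e x < e (τ x), fun x => ?_, ?_⟩
  · simp only [mem_filter, mem_univ, true_and, h1]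
    exact lt_or_gt_of_ne fun h => h2 x (e.injective h).symm
  · have : (univ.filter fun x => e x < e (τ x)).card ≤ (univ.filter fun x => ¬ e x < e (τ x)).card :=
      card_le_card_of_injOn τ (fun x hx => by simp at hx ⊢; rw [h1]; exact hx.le)
        (Function.LeftInverse.injective h1).injOn
    have h := card_filter_add_card_filter_not (s := univ) (fun x => e x < e (τ x))
    rw [card_univ] at h; omega

theorem Tens_C {c h : ℕ} (hc : Cost (CM κ) c) (hι : Fintype.card ι = 2 * h) {M : κ → Matrix ι ι ℂ}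
    (hM : ∀ i, IsC (M i)) : Cost (Tens M) (h ^ Fintype.card κ * c) := by
  choose τ h1 h2 h3 using hM
  choose R r1 r2 using fun i => half (h1 i) (h2 i)
  refine (cost_act hc (fun z x i => if z i = 0 then x i else τ i (x i)) (fun z z' x => ?_)
    (Fintype.piFinset R) (fun x => ?_) (fun V _ _ f x => ?_)).le ?_
  · funext i
    rcases z2c (z i) with a | a <;> rcases z2c (z' i) with b | b <;> simp [a, b, h1, z2]
  · refine ⟨fun i => if x i ∈ R i then x i else τ i (x i), Fintype.mem_piFinset.2 fun i => ?_,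
      fun i => if x i ∈ R i then 0 else 1, funext fun i => ?_⟩
    · split_ifs with a
      · exact a
      · exact (r1 i _).resolve_left a
    · by_cases a : x i ∈ R i <;> simp [a, h1]
  · have : ∀ y, Tens M x y = ∑ z : κ → ZMod 2,
        if y = fun i => if z i = 0 then x i else τ i (x i) then cc z else 0 := by
      intro y
      have : ∀ i, M i (x i) (y i) = ∑ a : ZMod 2,
          if y i = if a = 0 then x i else τ i (x i) then c1 a else 0 := by
        intro i; rw [sum_z2, h3]; simp [c1]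
      simp only [Tens, of_apply, this, funext_iff, cc]
      rw [prod_univ_sum, Fintype.piFinset_univ]
      refine sum_congr rfl fun z _ => ?_
      rw [prod_ite_zero]; simp
    simp only [mv, this, sum_smul]
    rw [sum_comm]
    simp [ite_smul]
  · rw [Fintype.card_piFinset, ← card_univ, ← prod_const]
    gcongr with i
    have := r2 i; omega

theorem Tens_cost {c h T : ℕ} (hc : Cost (CM κ) c) (hι : Fintype.card ι = 2 * h)
    {M : κ → Matrix ι ι ℂ} (hM : ∀ i, Lay T (M i)) :
    Cost (Tens M) ((T + 1) * (2 * h) ^ Fintype.card κ + T * (h ^ Fintype.card κ * c)) := by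
  induction T generalizing M with
  | zero => exact (Tens_mono hM).cost.le (by simp [hι])
  | succ T ih =>
    choose D C M' a b d e using hM
    rw [funext e, Tens_mul, Tens_mul]
    refine (((Tens_mono a).cost.mul (Tens_C hc hι b)).mul (ih d)).le (le_of_eq ?_)
    rw [Fintype.card_fun, hι]; ring

noncomputable def ze (m : ℕ) : ℂ := exp (2 * Real.pi * I / m)
noncomputable def FM (m : ℕ) : Matrix (Fin m) (Fin m) ℂ := Matrix.of fun j k => ze m ^ (j.1 * k.1)

theorem ze_prim {m : ℕ} (h : m ≠ 0) : IsPrimitiveRoot (ze m) m := isPrimitiveRoot_exp m h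
theorem ze_two (m : ℕ) : ze (m * 2) ^ 2 = ze m := by
  rw [ze, ze, ← exp_nat_mul]; congr 1; push_cast; field_simp
theorem ze_half {m : ℕ} (h : m ≠ 0) : ze (m * 2) ^ m = -1 := by
  rw [ze, ← exp_nat_mul, ← exp_pi_mul_I]; congr 1; push_cast; field_simp

theorem lay_fft (b : ℕ) : Lay b (FM (2 ^ b)) := by
  induction b with
  | zero =>
    exact isMono_iff.2 ⟨id, 1, fun x y => by
      have := x.2; have := y.2
      simp [FM, show x.1 = 0 by omega, show y = x from Fin.ext (by omega)]⟩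
  | succ b ih =>
    have hm : 0 < 2 ^ b := by positivity
    change Lay (b + 1) (FM (2 ^ b * 2))
    generalize 2 ^ b = m at *
    let σ : Fin m ⊕ Fin m → Fin (m * 2) :=
      Sum.elim (fun x => ⟨2 * x, by omega⟩) (fun x => ⟨2 * x + 1, by omega⟩)
    have hσ : Function.Bijective σ := (Fintype.bijective_iff_injective_and_card _).2
      ⟨by rintro (x | x) (y | y) <;> simp [σ, Fin.ext_iff] <;> omega, by simp; ring⟩
    let z : Fin m → ℂ := fun j => ze (m * 2) ^ j.1
    have h1 : Lay (b + 1) (fromBlocks (FM m) (diagonal z * FM m) (FM m) (-(diagonal z * FM m))) := by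
      refine ⟨_, _, _, sc_mono (2 * be) (2 * al), sc_C, ih.dbl.monoL
        ((isMono_smul 1).blk ((isMono_smul I).mul (isMono_diag z))), ?_⟩
      rw [sc_mul, show 2 * be * al + 0 * be = 1 by norm_num [al, be, Complex.ext_iff],
        show 2 * be * be + 0 * al = -I by norm_num [al, be, Complex.ext_iff],
        show 0 * al + 2 * al * be = 1 by norm_num [al, be, Complex.ext_iff],
        show 0 * be + 2 * al * al = I by norm_num [al, be, Complex.ext_iff]]
      simp [sc, fromBlocks_multiply, smul_smul]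
    refine (h1.sub (fun j : Fin (m * 2) => if h : j.1 < m then .inl ⟨j, h⟩ else .inr ⟨j - m, by omega⟩)
      (Equiv.ofBijective σ hσ).symm).cast rfl ?_
    ext j k
    obtain ⟨k, rfl⟩ := (Equiv.ofBijective σ hσ).surjective k
    rw [submatrix_apply, Equiv.symm_apply_apply, Equiv.ofBijective_apply]
    have e1 := ze_two m
    have e2 := ze_half hm.ne'
    by_cases h : j.1 < m
    · rcases k with k | k <;> simp [h, σ, FM, z, ← e1, ← pow_mul, ← pow_add] <;> congr 1 <;> ring
    · obtain ⟨i, hi⟩ : ∃ i, j.1 = i + m := ⟨j - m, by omega⟩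
      rcases k with k | k
      · simp only [h, σ, FM, ← e1, ← pow_mul, dite_false, Sum.elim_inl, of_apply, fromBlocks_apply₂₁]
        rw [hi, add_mul, pow_add, pow_mul _ m, e2]; simp; congr 1; ring
      · simp only [h, σ, FM, z, ← e1, ← pow_mul, dite_false, Sum.elim_inr, of_apply,
          fromBlocks_apply₂₂, Matrix.neg_apply, diagonal_mul, ← pow_add]
        rw [hi, add_mul, pow_add, pow_mul _ m, e2]; simp [pow_succ]; congr 1; ring

end Vale.Agent.P344
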