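import Vale.Agent.P344.Lay

namespace Vale.Agent.P344

open Finset Complex Matrix

set_option linter.unusedSectionVars false

theorem ze_ne (m : ℕ) : ze m ≠ 0 := exp_ne_zero _

theorem orth_ze {m : ℕ} (h : m ≠ 0) (d : ℤ) :
    ∑ l : Fin m, (ze m ^ l.1) ^ d = if (m : ℤ) ∣ d then (m : ℂ) else 0 := by
  have e : ∀ l : Fin m, (ze m ^ l.1) ^ d = (ze m ^ d) ^ l.1 := fun l => by
    rw [← zpow_natCast, ← zpow_natCast, ← _root_.zpow_mul, ← _root_.zpow_mul, mul_comm]
  simp only [e, ← (ze_prim h).zpow_eq_one_iff_dvd]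
  split_ifs with h1
  · simp [h1]
  · rw [Fin.sum_univ_eq_sum_range (fun l => (ze m ^ d) ^ l), geom_sum_eq h1, ← zpow_natCast,
      ← _root_.zpow_mul, mul_comm, _root_.zpow_mul, zpow_natCast, (ze_prim h).pow_eq_one]
    simp

def red {m : ℕ} (h : m ≠ 0) (j : ℤ) : Fin m := ⟨(j % m).toNat, by
  have := Int.emod_lt_of_pos j (show (0 : ℤ) < m by omega)
  have := Int.emod_nonneg j (show (m : ℤ) ≠ 0 by omega); omega⟩

theorem red_val {m : ℕ} (h : m ≠ 0) (j : ℤ) : ((red h j).1 : ℤ) = j % m :=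
  Int.toNat_of_nonneg (Int.emod_nonneg j (by omega))

theorem FM_red {m : ℕ} (h : m ≠ 0) (j : ℤ) (l : Fin m) : FM m (red h j) l = (ze m ^ l.1) ^ j := by
  rw [FM, of_apply, mul_comm, pow_mul, ← zpow_natCast, red_val]
  conv_rhs => rw [← Int.emod_add_mul_ediv j m, zpow_add₀ (pow_ne_zero _ (ze_ne m)), _root_.zpow_mul,
    zpow_natCast, ← pow_mul _ _ m, mul_comm _ m, pow_mul, (ze_prim h).pow_eq_one]
  simp

theorem BL {Λ : Type} [Fintype Λ] (z : Λ → ℂ) (hz : ∀ l, z l ≠ 0) {N : ℂ} (hN : N ≠ 0) {n : ℕ}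
    (ho : ∀ d : ℤ, |d| < 2 * n → ∑ l, z l ^ d = if d = 0 then N else 0) (t : ℤ → ℂ) :
    ∃ Δ : Λ → ℂ, ∀ j k : Fin n, ∑ l, z l ^ (-(j.1 : ℤ)) * Δ l * z l ^ (k.1 : ℤ) = t (j.1 - k.1) := by
  refine ⟨fun l => ∑ d ∈ Ioo (-n : ℤ) n, t d / N * z l ^ d, fun j k => ?_⟩
  have : ∀ l d, z l ^ (-(j.1 : ℤ)) * (t d / N * z l ^ d) * z l ^ (k.1 : ℤ) =
      t d / N * z l ^ (d - (j.1 - k.1)) := by
    intro l d
    rw [show d - (j.1 - k.1) = -(j.1 : ℤ) + d + k.1 by ring, zpow_add₀ (hz l), zpow_add₀ (hz l)]; ring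
  simp only [mul_sum, sum_mul, this]
  have := j.2; have := k.2
  rw [sum_comm, sum_eq_single ((j.1 : ℤ) - k.1)]
  · rw [← mul_sum, ho _ (by simp; omega)]; simp [hN]
  · intro d hd h
    rw [mem_Ioo] at hd
    rw [← mul_sum, ho _ (by rw [abs_lt]; omega), if_neg (sub_ne_zero.2 h), mul_zero]
  · intro h; exact absurd (mem_Ioo.2 (by omega)) h

theorem chirp {w : ℂ} (hw : w ≠ 0) (j k : ℕ) :
    (w ^ 2) ^ (j * k) = w ^ (j ^ 2) * w ^ (-((j : ℤ) - k) ^ 2) * w ^ (k ^ 2) := by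
  rw [← pow_mul, ← zpow_natCast, ← zpow_natCast, ← zpow_natCast, ← zpow_add₀ hw, ← zpow_add₀ hw]
  congr 1; push_cast; ring

noncomputable def FB (m : ℕ) : Matrix (Fin m) (Fin m) ℂ :=
  Matrix.of fun j k => (m : ℂ)⁻¹ * (ze m ^ k.1) ^ (-(j.1 : ℤ))

theorem FM_eq (m : ℕ) (l k : Fin m) : FM m l k = (ze m ^ l.1) ^ (k.1 : ℤ) := by
  rw [FM, of_apply, pow_mul, zpow_natCast]

theorem FB_FM (m : ℕ) : FB m * FM m = 1 := by
  ext j k
  have h : m ≠ 0 := j.pos.ne'
  have : ∀ l : Fin m, FB m j l * FM m l k = (m : ℂ)⁻¹ * (ze m ^ l.1) ^ ((k.1 : ℤ) - j.1) := by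
    intro l
    rw [FB, FM_eq, of_apply, sub_eq_add_neg, zpow_add₀ (pow_ne_zero _ (ze_ne m))]; ring
  simp only [mul_apply, this, ← mul_sum, orth_ze h, one_apply]
  have := j.2; have := k.2
  by_cases e : j = k
  · simp [e, h]
  · rw [if_neg e, if_neg, mul_zero]
    intro hd
    exact e (Fin.ext (by have := Int.eq_zero_of_abs_lt_dvd hd (by rw [abs_lt]; omega); omega))

theorem lay_FB (b : ℕ) : Lay b (FB (2 ^ b)) := by
  refine (((lay_fft b).sub (fun j => red (by positivity) (-(j.1 : ℤ))) (Equiv.refl _)).monoL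
    (isMono_smul ((2 ^ b : ℕ) : ℂ)⁻¹)).cast rfl ?_
  ext j k
  simp [FB, FM_red]

section
variable {ι : Type} [Fintype ι] [DecidableEq ι]

theorem lay_swap {A B C D : Matrix ι ι ℂ} {T : ℕ} (h : Lay T (fromBlocks A B C D)) :
    Lay T (fromBlocks D C B A) :=
  (h.reidx (Equiv.sumComm ι ι)).cast rfl (by ext (x | x) (y | y) <;> simp)

/-- shear -/
def Gd (T : ℕ) (M : Matrix ι ι ℂ) : Prop := Lay T (fromBlocks 1 M 0 1)

theorem Gd.add {T T' : ℕ} {M N : Matrix ι ι ℂ} (h : Gd T M) (h' : Gd T' N) : Gd (T' + T) (M + N) :=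
  (Lay.mul h h').cast rfl (by simp [fromBlocks_multiply, add_comm])

theorem Gd.conj {T T' : ℕ} {M U U' : Matrix ι ι ℂ} (h : Gd T M) (e : U' * U = 1)
    (h1 : Lay T' (fromBlocks (1 : Matrix ι ι ℂ) 0 0 U))
    (h2 : Lay T' (fromBlocks (1 : Matrix ι ι ℂ) 0 0 U')) :
    Gd (T + 2 * T') (M * U) :=
  ((h2.mul h).mul h1).cast (by ring) (by simp [fromBlocks_multiply, e])

theorem split2 (d : ι → ℂ) : ∃ a b : ι → ℂ, (∀ i, a i ≠ 0) ∧ (∀ i, b i ≠ 0) ∧ d = a + b := by
  refine ⟨fun i => if d i = 1 then 2 else 1, fun i => if d i = 1 then -1 else d i - 1,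
    fun i => ?_, fun i => ?_, funext fun i => ?_⟩
  · dsimp only; split_ifs <;> simp
  · dsimp only; split_ifs with h
    · simp
    · exact sub_ne_zero.2 h
  · simp only [Pi.add_apply]; split_ifs with h
    · rw [h]; norm_num
    · ring

theorem mono1 : IsMono (1 : Matrix ι ι ℂ) := by simpa using isMono_smul (ι := ι) 1

theorem gd_diag (d : ι → ℂ) : Gd 6 (diagonal d) := by
  have : ∀ a : ι → ℂ, (∀ i, a i ≠ 0) → Gd 3 (diagonal a) := fun a ha => by
    simpa using Gd.conj (T' := 0) lay_shear (U := diagonal a) (U' := diagonal fun i => (a i)⁻¹)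
      (by simp [diagonal_mul_diagonal, ha]) (mono1.blk (isMono_diag _)) (mono1.blk (isMono_diag _))
  obtain ⟨a, b, ha, hb, rfl⟩ := split2 d
  exact Lay.cast ((this a ha).add (this b hb)) rfl (by rw [diagonal_add]; rfl)

theorem commut {A B : Matrix ι ι ℂ} {T T' : ℕ} (hA : Gd T A) (hA' : Gd T (-A)) (hB : Gd T' B)
    (hB' : Gd T' (-B)) (e : A * B = 0) :
    Lay (2 * T + 2 * T') (fromBlocks (1 + B * A) 0 0 (1 : Matrix ι ι ℂ)) := by
  refine (((hB'.mul (lay_swap hA')).mul hB).mul (lay_swap hA)).cast (by ring) ?_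
  simp [fromBlocks_multiply, add_mul, Matrix.mul_assoc, e]

theorem gd_G {F F' P : Matrix ι ι ℂ} {b : ℕ} (hF : Lay b F) (hF' : Lay b F') (e : F' * F = 1)
    (hP : IsMono P) (hPP : P * P = 1) (d Δ : ι → ℂ) :
    Gd (12 + 8 * b) (diagonal d * P * (F' * diagonal Δ * F)) := by
  have e' : F * F' = 1 := mul_eq_one_comm.1 e
  have l : ∀ a : ι → ℂ, Lay (2 * b) (fromBlocks (1 : Matrix ι ι ℂ) 0 0 (F' * diagonal a * F)) := fun a =>
    ((hF'.dbl.monoR (mono1.blk (isMono_diag a))).mul hF.dbl).cast (by ring)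
      (by simp [fromBlocks_multiply, e])
  have : ∀ a : ι → ℂ, (∀ i, a i ≠ 0) → Gd (6 + 4 * b) (diagonal d * P * (F' * diagonal a * F)) :=
    fun a ha => Lay.cast (((gd_diag d).conj (T' := 0) hPP (mono1.blk hP) (mono1.blk hP)).conj
      (U' := F' * diagonal (fun i => (a i)⁻¹) * F) (by
        simp only [Matrix.mul_assoc]
        rw [← Matrix.mul_assoc F, e', Matrix.one_mul, ← Matrix.mul_assoc (diagonal _)]
        simp [diagonal_mul_diagonal, ha, e]) (l a) (l _)) (by ring) rfl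
  obtain ⟨a, b, ha, hb, rfl⟩ := split2 Δ
  refine Lay.cast ((this a ha).add (this b hb)) (by ring) ?_
  rw [← Matrix.mul_add, ← Matrix.add_mul, ← Matrix.mul_add, diagonal_add]; rfl

def Em {α : Type} (p : α → ι) : Matrix ι α ℂ := (1 : Matrix ι ι ℂ).submatrix id p

theorem Em_sub {α β : Type} (p : α → ι) (p' : β → ι) (M : Matrix ι ι ℂ) :
    (Em p)ᵀ * M * Em p' = M.submatrix p p' := by
  ext j k; simp [Em, mul_apply, one_apply]

theorem Em_diag {α : Type} [Fintype α] [DecidableEq α] {p : α → ι} (hp : Function.Injective p)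
    (d : α → ℂ) : ∃ l : ι → ℂ, Em p * diagonal d * (Em p)ᵀ = diagonal l := by
  refine ⟨fun w => ∑ j, if w = p j then d j else 0, ?_⟩
  ext w w'
  simp only [Em, mul_apply, diagonal_apply, submatrix_apply, id, one_apply, transpose_apply]
  split_ifs with h
  · subst h; simp; exact sum_congr rfl fun j _ => by split_ifs <;> rfl
  · refine sum_eq_zero fun j _ => ?_
    by_cases a : w' = p j
    · simp [a, show w ≠ p j from a ▸ h]
    · simp [a]
end

theorem local_Z {b q : ℕ} (hq : q ≤ 2 ^ b) :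
    ∃ Z : Matrix (Fin (2 ^ (b + 1)) ⊕ Fin (2 ^ (b + 1))) (Fin (2 ^ (b + 1)) ⊕ Fin (2 ^ (b + 1))) ℂ,
      Lay (6 * (36 + 16 * (b + 1))) Z ∧ ∃ ρ γ : Fin q × (Bool × Bool) → _, Function.Injective γ ∧
        Z.submatrix ρ γ = Matrix.of fun x y => if x.2 = y.2 then FM q x.1 y.1 else 0 := by
  have hF := lay_fft (b + 1)
  have hF' := lay_FB (b + 1)
  have hm : 2 ^ (b + 1) = 2 * 2 ^ b := by ring
  have hL : 0 < 2 ^ b := by positivity
  generalize 2 ^ (b + 1) = m at *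
  generalize 2 ^ b = L at *
  let px : Fin q → Fin m := fun j => ⟨j, by omega⟩
  let py : Fin q → Fin m := fun j => ⟨j + L, by omega⟩
  let sh : Fin m → Fin m := fun w => if h : w.1 < L then ⟨w + L, by omega⟩ else ⟨w - L, by omega⟩
  have ix : Function.Injective px := fun a b h => Fin.ext (by simpa [px] using h)
  have iy : Function.Injective py := fun a b h => Fin.ext (by simpa [py] using h)
  have sx : ∀ j, sh (px j) = py j := fun j => dif_pos (by simp [px]; omega)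
  have ss : ∀ w, sh (sh w) = w := fun w => by
    by_cases h : w.1 < L <;> simp [sh, h]
    rw [dif_pos (by omega)]; exact Fin.ext (by simp; omega)
  have sy : ∀ j, sh (py j) = px j := fun j => by rw [← sx, ss]
  have xy : ∀ j k, px j ≠ py k := fun j k h => by simp [px, py] at h; omega
  let P : Matrix (Fin m) (Fin m) ℂ := (1 : Matrix (Fin m) (Fin m) ℂ).submatrix sh id
  have hP : IsMono P := isMono_sel sh
  have PP : P * P = 1 := by
    ext x y; simp only [P, mul_apply, one_apply, submatrix_apply, id, ite_mul, zero_mul, sum_ite_eq]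
    simp [ss]
  have xx : (Em px)ᵀ * Em px = 1 := by
    simpa [submatrix_one _ ix] using Em_sub px px 1
  have yy : (Em py)ᵀ * Em py = 1 := by
    simpa [submatrix_one _ iy] using Em_sub py py 1
  have x0 : (Em px)ᵀ * Em py = 0 := by
    have := Em_sub px py 1
    rw [Matrix.mul_one] at this
    rw [this]; ext j k; simp [one_apply, xy]
  have y0 : (Em py)ᵀ * Em px = 0 := by simpa using congrArg transpose x0
  have yP : (Em py)ᵀ * P = (Em px)ᵀ := by
    ext j w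
    simp only [Em, P, mul_apply, one_apply, submatrix_apply, id, ite_mul, zero_mul, sum_ite_eq',
      transpose_apply]
    simp [sy, eq_comm]
  have xP : (Em px)ᵀ * P = (Em py)ᵀ := by rw [← yP, Matrix.mul_assoc, PP, Matrix.mul_one]
  have Py : P * Em py = Em px := by
    ext w j; simp only [Em, P, mul_apply, one_apply, submatrix_apply, id]
    simp; exact if_congr ⟨fun h => by rw [← ss w, h, sy], fun h => by rw [h, sx]⟩ rfl rfl
  have toep : ∀ (w : ℂ) (c : ℂ), w ≠ 0 → Lay (36 + 16 * (b + 1)) (fromBlocks (1 + Em py *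
      (Matrix.of fun j k : Fin q => c * (w ^ 2) ^ (j.1 * k.1)) * (Em px)ᵀ) 0 0
        (1 : Matrix (Fin m) (Fin m) ℂ)) := by
    intro w c hw
    obtain ⟨Δ, hΔ⟩ := BL (fun l : Fin m => ze m ^ l.1) (fun l => pow_ne_zero _ (ze_ne m))
      (N := m) (by simp; omega) (n := q) (fun d hd => by
        rw [orth_ze (by omega)]
        refine if_congr ⟨fun h => Int.eq_zero_of_abs_lt_dvd h (by omega), fun h => by simp [h]⟩ rfl rfl)
      (fun d => w ^ (-d ^ 2))
    obtain ⟨l, hl⟩ := Em_diag iy (fun j => c * w ^ (j.1 ^ 2))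
    obtain ⟨μ, hμ⟩ := Em_diag ix (fun j => w ^ (j.1 ^ 2))
    refine (commut (gd_diag μ) (by simpa [← diagonal_neg] using gd_diag (fun i => -μ i))
      (gd_G hF hF' (FB_FM m) hP PP l fun i => m * Δ i)
      (by simpa [← diagonal_neg] using gd_G hF hF' (FB_FM m) hP PP (fun i => -l i) fun i => m * Δ i)
      ?_).cast (by ring) ?_
    · rw [← hl, ← hμ]; simp only [Matrix.mul_assoc]
      rw [← Matrix.mul_assoc (Em px)ᵀ, x0]; simp
    · rw [← hl, ← hμ, Matrix.mul_assoc _ _ P, yP]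
      congr 2
      calc _ = Em py * (diagonal (fun j : Fin q => c * w ^ (j.1 ^ 2)) * ((Em px)ᵀ * (FB m *
            diagonal (fun i => m * Δ i) * FM m) * Em px) * diagonal (fun j : Fin q => w ^ (j.1 ^ 2)))
            * (Em px)ᵀ := ?_
        _ = _ := by simp only [Matrix.mul_assoc]
      congr 2
      ext j k
      rw [Em_sub, mul_diagonal, diagonal_mul, of_apply, chirp hw, ← hΔ, submatrix_apply, mul_apply]
      have : (m : ℂ) ≠ 0 := by simp; omega
      simp only [mul_diagonal, FB, FM_eq, of_apply, px, mul_assoc]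
      congr 3
      exact sum_congr rfl fun l _ => by field_simp
  have t1 := toep (ze (q * 2)) 1 (ze_ne _)
  have t2 := toep (ze (q * 2))⁻¹ (-(q : ℂ)⁻¹) (inv_ne_zero (ze_ne _))
  rw [show (Matrix.of fun j k : Fin q => 1 * (ze (q * 2) ^ 2) ^ (j.1 * k.1)) = FM q by
    ext j k; simp [ze_two, FM]] at t1
  rw [show (Matrix.of fun j k : Fin q => -(q : ℂ)⁻¹ * ((ze (q * 2))⁻¹ ^ 2) ^ (j.1 * k.1)) = -FB q by
    ext j k; simp [ze_two, FB, ← pow_mul, mul_comm]] at t2
  have t3 : Lay (36 + 16 * (b + 1)) (fromBlocks (1 + Em px * -FB q * (Em py)ᵀ) 0 0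
      (1 : Matrix (Fin m) (Fin m) ℂ)) := by
    refine ((t2.monoL (hP.blk mono1)).monoR (hP.blk mono1)).cast rfl ?_
    simp only [fromBlocks_multiply, Matrix.mul_add, Matrix.add_mul, ← Matrix.mul_assoc, Py]
    simp [PP, Matrix.mul_assoc, xP]
  obtain ⟨l, hl⟩ := Em_diag ix (fun _ => -(q : ℂ))
  obtain ⟨l', hl'⟩ := Em_diag iy (fun _ => (1 : ℂ))
  set Z0 := (diagonal l + diagonal l') * ((1 + Em py * FM q * (Em px)ᵀ) *
    (1 + Em px * -FB q * (Em py)ᵀ) * (1 + Em py * FM q * (Em px)ᵀ)) with hZ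
  have t4 : Lay (3 * (36 + 16 * (b + 1))) (fromBlocks Z0 0 0 (1 : Matrix (Fin m) (Fin m) ℂ)) := by
    refine (((t1.mul t3).mul t1).monoL ((isMono_diag (l + l')).blk mono1)).cast (by ring) ?_
    simp [fromBlocks_multiply, hZ, diagonal_add]; rfl
  have c1 : ∀ {α : Type} (M : Matrix (Fin q) α ℂ), (Em px)ᵀ * (Em px * M) = M := fun M => by
    rw [← Matrix.mul_assoc, xx, Matrix.one_mul]
  have c2 : ∀ {α : Type} (M : Matrix (Fin q) α ℂ), (Em py)ᵀ * (Em py * M) = M := fun M => by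
    rw [← Matrix.mul_assoc, yy, Matrix.one_mul]
  have c3 : ∀ {α : Type} (M : Matrix (Fin q) α ℂ), (Em px)ᵀ * (Em py * M) = 0 := fun M => by
    rw [← Matrix.mul_assoc, x0, Matrix.zero_mul]
  have c4 : ∀ {α : Type} (M : Matrix (Fin q) α ℂ), (Em py)ᵀ * (Em px * M) = 0 := fun M => by
    rw [← Matrix.mul_assoc, y0, Matrix.zero_mul]
  have f1 := FB_FM q
  have f2 : FM q * FB q = 1 := mul_eq_one_comm.1 f1
  have f3 : ∀ M : Matrix (Fin q) (Fin q) ℂ, FM q * (FB q * M) = M := fun M => by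
    rw [← Matrix.mul_assoc, f2, Matrix.one_mul]
  have zxx : Z0.submatrix px px = 0 := by
    rw [← Em_sub, hZ, ← hl, ← hl']
    simp [Matrix.mul_add, Matrix.add_mul, Matrix.mul_assoc, c1, c2, c3, c4, xx, x0, y0, yy, f1]
  have zyy : Z0.submatrix py py = 0 := by
    rw [← Em_sub, hZ, ← hl, ← hl']
    simp [Matrix.mul_add, Matrix.add_mul, Matrix.mul_assoc, c1, c2, c3, c4, xx, x0, y0, yy, f2]
  have zyx : Z0.submatrix py px = FM q := by
    rw [← Em_sub, hZ, ← hl, ← hl']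
    simp [Matrix.mul_add, Matrix.add_mul, Matrix.mul_assoc, c1, c2, c3, c4, xx, x0, y0, yy, f1]
  have zxy : Z0.submatrix px py = diagonal (fun _ => -(q : ℂ)) * -FB q := by
    rw [← Em_sub, hZ, ← hl, ← hl']
    simp [Matrix.mul_add, Matrix.add_mul, Matrix.mul_assoc, c1, c2, c3, c4, xx, x0, y0, yy]
  have a1 := fun j k => congrFun (congrFun zxx j) k
  have a2 := fun j k => congrFun (congrFun zyy j) k
  have a3 := fun j k => congrFun (congrFun zyx j) k
  have a4 : ∀ j k : Fin q, Z0 (px (red j.pos.ne' (-(j.1 : ℤ)))) (py k) = FM q j k := by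
    intro j k
    have := congrFun (congrFun zxy (red j.pos.ne' (-(j.1 : ℤ)))) k
    rw [submatrix_apply, diagonal_mul] at this
    have hq0 : (q : ℂ) ≠ 0 := by simpa using j.pos.ne'
    rw [this, Matrix.neg_apply, FB, of_apply, _root_.zpow_neg, ← FM_eq, neg_mul_neg, mul_inv_cancel_left₀ hq0,
      show FM q k (red j.pos.ne' (-(j.1 : ℤ))) = FM q (red j.pos.ne' (-(j.1 : ℤ))) k by
        simp [FM, mul_comm], FM_red, _root_.zpow_neg, inv_inv, ← FM_eq]
    simp [FM, mul_comm]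
  simp only [submatrix_apply, Matrix.zero_apply] at a1 a2 a3
  refine ⟨fromBlocks Z0 0 0 Z0, (t4.mul (lay_swap t4)).cast (by ring) (by simp [fromBlocks_multiply]),
    fun x => (if x.2.1 then Sum.inl else Sum.inr)
      (if x.2.2 then px (red x.1.pos.ne' (-(x.1.1 : ℤ))) else py x.1),
    fun x => (if x.2.1 then Sum.inl else Sum.inr) (if x.2.2 then py x.1 else px x.1), ?_, ?_⟩
  · rintro ⟨j, _ | _, _ | _⟩ ⟨k, _ | _, _ | _⟩ <;> simp [ix.eq_iff, iy.eq_iff, xy, (xy _ _).symm]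
  · ext ⟨j, _ | _, _ | _⟩ ⟨k, _ | _, _ | _⟩ <;> simp [a1, a2, a3, a4]

end Vale.Agent.P344
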