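import Vale.Agent.P344.Local

namespace Vale.Agent.P344

open Finset Complex Matrix

set_option linter.unusedSectionVars false

theorem Lay.cost {ι : Type} [Fintype ι] [DecidableEq ι] {M : Matrix ι ι ℂ} {T : ℕ} (h : Lay T M) :
    Cost M (Fintype.card ι * (4 * T + 1)) := by
  induction T generalizing M with
  | zero => exact (IsMono.cost h).le (by simp)
  | succ T ih =>
    obtain ⟨D, C, M', a, ⟨τ, -, -, b⟩, c, rfl⟩ := h
    have : Cost C (Fintype.card ι * 3) := fun V _ _ A f _ hf => Der.range fun x => by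
      rw [show mv C f x = al • f x + be • f (τ x) by simp [mv, b, add_smul, sum_add_distrib]]
      exact ((dm hf x).smul1 _).add1 ((dm hf _).smul1 _)
    exact ((a.cost.mul this).mul (ih c)).le (le_of_eq (by ring))

theorem global {k b r n c : ℕ} (q : Fin k → ℕ) (q0 : ∀ i, q i ≠ 0) (q1 : ∀ i, q i ≤ 2 ^ b)
    (q2 : Pairwise fun i j => Nat.Coprime (q i) (q j)) (q3 : ∀ i, Nat.Coprime (q i) 2)
    (hn : 2 * n ≤ (∏ i, q i) * 2 ^ (2 * k + r)) (hc : Cost (CM (Fin k)) c) :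
    Cost (FM n) (2 * n + 2 ^ ((b + 2) * k + r) * (5 + 8 * (2 * k + r) + 2 * (6 * (36 + 16 * (b + 1))))
      + 2 * (6 * (36 + 16 * (b + 1))) * (2 ^ ((b + 1) * k + r) * c)) := by
  choose Z hZ ρ γ hγ e using fun i => local_Z (q1 i)
  have h1 := (Tens_cost hc (h := 2 ^ (b + 1)) (by simp [two_mul]) hZ).sub
    (fun (x : (Π i, Fin (q i)) × (Fin k → Bool × Bool)) i => ρ i (x.1 i, x.2 i))
    (γ := fun (x : (Π i, Fin (q i)) × (Fin k → Bool × Bool)) i => γ i (x.1 i, x.2 i)) (by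
      intro x y h
      have := fun i => Prod.ext_iff.1 (hγ i (congrFun h i))
      exact Prod.ext (funext fun i => (this i).1) (funext fun i => (this i).2))
  let E : Fin (2 ^ (2 * k + r)) ≃ (Fin k → Bool × Bool) × Fin (2 ^ r) :=
    Fintype.equivOfCardEq (by simp [pow_add, pow_mul])
  let TF : Matrix (Π i, Fin (q i)) (Π i, Fin (q i)) ℂ :=
    Matrix.of fun x y => ∏ i, FM (q i) (x i) (y i)
  let g : (Π i, Fin (q i)) × Fin (2 ^ (2 * k + r)) →
      ((Π i, Fin (q i)) × (Fin k → Bool × Bool)) × Fin (2 ^ r) :=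
    fun x => ((x.1, (E x.2).1), (E x.2).2)
  have h2 := (h1.kron (μ := Fin (2 ^ r))).sub g (γ := g) (by
    intro x y h
    simp only [g, Prod.mk.injEq] at h
    exact Prod.ext h.1.1 (E.injective (Prod.ext h.1.2 h.2)))
  have h3 := cost_tens (M := TF) (by
    convert h2 using 1
    ext x y
    have := fun i => congrFun (congrFun (e i) (x.1 i, (E x.2).1 i)) (y.1 i, (E y.2).1 i)
    simp only [submatrix_apply, of_apply] at this
    simp only [submatrix_apply, of_apply, g, Tens, this, TF]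
    have hE : x.2 = y.2 ↔ (E x.2).2 = (E y.2).2 ∧ ∀ i, (E x.2).1 i = (E y.2).1 i := by
      rw [← E.injective.eq_iff, Prod.ext_iff, funext_iff, and_comm]
    rw [prod_ite_zero]
    simp only [mem_univ, true_implies, hE, ite_and]) (lay_fft (2 * k + r)).cost
  let z : (Π i, Fin (q i)) × Fin (2 ^ (2 * k + r)) → ℂ :=
    fun l => (∏ i, ze (q i) ^ (l.1 i).1) * ze (2 ^ (2 * k + r)) ^ l.2.1
  have a0 : 2 ^ (2 * k + r) ≠ 0 := by positivity
  let φ : ℤ → (Π i, Fin (q i)) × Fin (2 ^ (2 * k + r)) := fun j => (fun i => red (q0 i) j, red a0 j)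
  have dv : ∀ d : ℤ, |d| < 2 * n → (∀ i, (q i : ℤ) ∣ d) → ((2 ^ (2 * k + r) : ℕ) : ℤ) ∣ d → d = 0 := by
    intro d hd h h'
    have p1 : (∏ i, (q i : ℤ)) ∣ d := Fintype.prod_dvd_of_coprime
      (fun i j hij => Nat.isCoprime_iff_coprime.2 (q2 hij)) h
    have p2 := IsCoprime.mul_dvd (IsCoprime.prod_left fun i _ =>
      Nat.isCoprime_iff_coprime.2 ((q3 i).pow_right _)) p1 h'
    refine Int.eq_zero_of_abs_lt_dvd p2 (hd.trans_le ?_)
    exact_mod_cast hn
  have hφ : Function.Injective fun j : Fin n => φ j.1 := by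
    intro i j h
    simp only [φ, Prod.mk.injEq, funext_iff, Fin.ext_iff] at h
    have := i.2; have := j.2
    have key : ∀ {m : ℕ} (hm : m ≠ 0), (red hm i.1).1 = (red hm j.1).1 → (m : ℤ) ∣ (j.1 : ℤ) - i.1 := by
      intro m hm h
      have : ((red hm i.1).1 : ℤ) = (red hm j.1).1 := by rw [h]
      rw [red_val, red_val] at this
      exact Int.ModEq.dvd this
    have := dv ((j.1 : ℤ) - i.1) (by rw [abs_lt]; omega) (fun a => key _ (h.1 a)) (key _ h.2)
    exact Fin.ext (by omega)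
  obtain ⟨Δ, hΔ⟩ := BL z (fun l => mul_ne_zero (prod_ne_zero_iff.2 fun i _ => pow_ne_zero _ (ze_ne _))
    (pow_ne_zero _ (ze_ne _))) (N := (∏ i, (q i : ℂ)) * ((2 ^ (2 * k + r) : ℕ) : ℂ))
    (mul_ne_zero (prod_ne_zero_iff.2 fun i _ => by simpa using q0 i) (by simp)) (n := n)
    (fun d hd => by
      simp only [z, mul_zpow, ← prod_zpow, Fintype.sum_prod_type, ← mul_sum, ← sum_mul]
      rw [← Fintype.piFinset_univ, ← prod_univ_sum (fun _ => univ)
        (fun i (l : Fin (q i)) => (ze (q i) ^ l.1) ^ d), orth_ze a0]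
      simp only [orth_ze (q0 _)]
      rw [prod_ite_zero]
      by_cases h : d = 0
      · simp [h]
      · rw [if_neg h]
        split_ifs with h1 h2
        · exact absurd (dv d hd (fun i => h1 i (mem_univ _)) h2) h
        all_goals simp) (fun d => ze (n * 2) ^ (-d ^ 2))
  have sym : ∀ m (x y : Fin m), FM m x y = FM m y x := fun m x y => by simp [FM, mul_comm]
  have h4 := ((((isMono_diag fun j : Fin n => ze (n * 2) ^ (j.1 ^ 2)).cost.mul
    (h3.sub (fun j : Fin n => φ (-j.1)) Function.injective_id)).mul (isMono_diag Δ).cost).mul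
    (h3.sub id hφ)).mul (isMono_diag fun j : Fin n => ze (n * 2) ^ (j.1 ^ 2)).cost
  convert h4.le _ using 1
  · ext j l
    rw [mul_diagonal, mul_apply, FM, of_apply, ← ze_two, chirp (ze_ne _), ← hΔ, mul_sum]
    congr 1
    refine sum_congr rfl fun x _ => ?_
    simp only [mul_diagonal, diagonal_mul, submatrix_apply, of_apply, id, TF, φ, sym _ (x.1 _),
      sym _ x.2, FM_red, z, mul_zpow, prod_zpow]
    ring
  · have hQ : (∏ i, q i) * 2 ^ (2 * k + r) ≤ 2 ^ ((b + 2) * k + r) := by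
      calc _ ≤ (∏ i : Fin k, 2 ^ b) * 2 ^ (2 * k + r) := by gcongr with i; exact q1 i
        _ = _ := by simp [← pow_mul, ← pow_add]; ring
    simp only [Fintype.card_fin, Fintype.card_prod, Fintype.card_pi]
    have e1 : 2 ^ r * (2 * 2 ^ (b + 1)) ^ k = 2 ^ ((b + 2) * k + r) := by
      rw [← pow_succ', ← pow_mul, ← pow_add]; congr 1; ring
    have e2 : 2 ^ r * (2 ^ (b + 1)) ^ k = 2 ^ ((b + 1) * k + r) := by
      rw [← pow_mul, ← pow_add]; congr 1; ring
    rw [← mul_assoc (∏ i, q i), ← e1, ← e2]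
    rw [← e1] at hQ
    generalize (∏ i, q i) * 2 ^ (2 * k + r) = N at hQ ⊢
    generalize 6 * (36 + 16 * (b + 1)) = T
    generalize (2 * 2 ^ (b + 1)) ^ k = X at hQ ⊢
    generalize (2 ^ (b + 1)) ^ k = Y
    generalize 2 * k + r = a
    generalize 2 ^ r = R at hQ ⊢
    nlinarith [Nat.mul_le_mul_right a hQ]

theorem exq {k b : ℕ} (hk : 2 ≤ k) (hb : k * k + 2 * k ≤ b) : ∃ q : Fin k → ℕ, (∀ i, q i ≠ 0) ∧
    (∀ i, q i ≤ 2 ^ b) ∧ (Pairwise fun i j => Nat.Coprime (q i) (q j)) ∧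
    (∀ i, Nat.Coprime (q i) 2) ∧ 2 ^ (b * k) ≤ 2 * ∏ i, q i := by
  have f0 : 0 < k.factorial := k.factorial_pos
  have big : 2 * k * ((k + 1) * k.factorial) ≤ 2 ^ b := by
    calc _ ≤ 2 ^ k * (2 ^ k * (2 ^ k) ^ k) := by
          gcongr
          · obtain ⟨j, rfl⟩ : ∃ j, k = j + 1 := ⟨k - 1, by omega⟩
            have := @Nat.lt_two_pow_self j; rw [pow_succ]; omega
          · exact Nat.lt_two_pow_self
          · exact k.factorial_le_pow.trans (Nat.pow_le_pow_left Nat.lt_two_pow_self.le _)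
      _ = 2 ^ (k * k + 2 * k) := by rw [← pow_mul, ← pow_add, ← pow_add]; congr 1; ring
      _ ≤ _ := Nat.pow_le_pow_right (by norm_num) hb
  rw [pow_mul]
  generalize 2 ^ b = L at *
  have d1 := Nat.div_add_mod L k.factorial
  have d2 := Nat.mod_lt L f0
  obtain ⟨s, hs⟩ : ∃ s, L / k.factorial = s + k := by
    refine ⟨L / k.factorial - k, (Nat.sub_add_cancel ((Nat.le_div_iff_mul_le f0).2 ?_)).symm⟩
    nlinarith
  rw [hs] at d1
  refine ⟨fun i => (s + i) * k.factorial + 1, by simp, fun i => ?_, ?_, fun i => ?_, ?_⟩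
  · have : (s + i + 1) * k.factorial ≤ (s + k) * k.factorial := Nat.mul_le_mul_right _ (by omega)
    rw [add_one_mul, mul_comm (s + k)] at this
    dsimp only; omega
  · have : ∀ i j : Fin k, i < j → Nat.Coprime ((s + i) * k.factorial + 1) ((s + j) * k.factorial + 1) :=
      fun i j h => Nat.coprime_mul_succ (Nat.dvd_factorial (by omega) (by omega))
    intro i j h
    rcases lt_or_gt_of_ne h with h | h
    · exact this i j h
    · exact (this j i h).symm
  · obtain ⟨t, ht⟩ : 2 ∣ k.factorial := Nat.dvd_factorial (by omega) hk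
    rw [Nat.coprime_two_right, ht]; exact ⟨(s + i) * t, by ring⟩
  · have k0 : (0 : ℝ) < k := by exact_mod_cast (by omega : 0 < k)
    have k2 : (2 : ℝ) ≤ k := by exact_mod_cast hk
    have h1 : ∀ i : Fin k, (L : ℝ) * (1 + -(1 / (2 * k))) ≤ (((s + i) * k.factorial + 1 : ℕ) : ℝ) := by
      intro i
      have a0 : L ≤ ((s + i) * k.factorial + 1) + (k + 1) * k.factorial := by
        nlinarith [Nat.zero_le (i.1 * k.factorial)]
      have a : 2 * k * L ≤ 2 * k * ((s + i) * k.factorial + 1) + L := by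
        nlinarith [Nat.mul_le_mul_left (2 * k) a0]
      have a' : (2 * k * L : ℝ) ≤ 2 * k * (((s + i) * k.factorial + 1 : ℕ) : ℝ) + L := by exact_mod_cast a
      rw [show (L : ℝ) * (1 + -(1 / (2 * k))) = (2 * k * L - L) / (2 * k) by field_simp; ring,
        div_le_iff₀ (by positivity)]
      linarith
    have h0 : 1 / (2 * (k : ℝ)) ≤ 1 := by rw [div_le_one (by positivity)]; linarith
    have h2 := one_add_mul_le_pow (a := -(1 / (2 * (k : ℝ)))) (by linarith) k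
    rw [show (1 : ℝ) + k * -(1 / (2 * k)) = 1 / 2 by field_simp; ring] at h2
    have h3 := prod_le_prod (s := univ) (fun i _ => mul_nonneg (Nat.cast_nonneg L) (by linarith))
      (fun i _ => h1 i)
    rw [prod_const, card_univ, Fintype.card_fin, mul_pow, ← Nat.cast_prod] at h3
    have : (L : ℝ) ^ k ≤ 2 * ((∏ i : Fin k, ((s + i) * k.factorial + 1) : ℕ) : ℝ) := by
      nlinarith [pow_nonneg (Nat.cast_nonneg (α := ℝ) L) k]
    exact_mod_cast this

theorem main : ∃ C : ℝ, ∀ n : ℕ, 2 ≤ n → ∃ c : ℕ, Cost (FM n) c ∧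
    (c : ℝ) ≤ C * n * Real.logb 2 n ^ (1 - 1 / 10 ^ 9 : ℝ) := by
  obtain ⟨C, C1, hC⟩ := K_bound
  obtain ⟨D, D1, hD⟩ : ∃ D : ℝ, 1 ≤ D ∧ ∀ n : ℕ, Nat.log 2 n < 81 → (n : ℝ) ≤ D :=
    ⟨2 ^ 81, one_le_pow₀ one_le_two, fun n h => by
      exact_mod_cast (Nat.lt_pow_of_log_lt one_lt_two h).le⟩
  refine ⟨10 ^ 6 * (C + D), fun n hn => ?_⟩
  have n0 : (0 : ℝ) < n := by exact_mod_cast (by omega : 0 < n)
  have l1 : (Nat.log 2 n : ℝ) ≤ Real.logb 2 n := by
    have := Real.natLog_le_logb n 2; simpa using this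
  have l0 : 1 ≤ Nat.log 2 n := Nat.log_pos one_lt_two hn
  have l2 : (1 : ℝ) ≤ Real.logb 2 n := le_trans (by exact_mod_cast l0) l1
  have X1 : 1 ≤ Real.logb 2 n ^ (1 - 1 / 10 ^ 9 : ℝ) := Real.one_le_rpow l2 (by norm_num)
  by_cases hs : Nat.log 2 n < 81
  · refine ⟨_, Cost.triv _, ?_⟩
    have := hD n hs
    simp only [Fintype.card_fin]; push_cast
    calc _ ≤ 10 ^ 6 * (C + D) * n * 1 := by nlinarith
      _ ≤ _ := by gcongr
  have n1 : n < 2 ^ (Nat.log 2 n + 1) := Nat.lt_pow_succ_log_self one_lt_two n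
  have n2 : 2 ^ Nat.log 2 n ≤ n := Nat.pow_log_le_self 2 (by omega)
  generalize Nat.log 2 n = l at *
  obtain ⟨k, k1, k2⟩ : ∃ k, k ^ 4 ≤ l ∧ l < (k + 1) ^ 4 := by
    refine ⟨l.sqrt.sqrt, ?_, ?_⟩
    · have a := Nat.sqrt_le' l; have b := Nat.sqrt_le' l.sqrt
      calc _ = (l.sqrt.sqrt ^ 2) ^ 2 := by ring
        _ ≤ _ := le_trans (by gcongr) a
    · have a := Nat.lt_succ_sqrt' l; have b := Nat.lt_succ_sqrt' l.sqrt
      calc _ < _ := a
        _ ≤ ((l.sqrt.sqrt + 1) ^ 2) ^ 2 := by gcongr; exact b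
        _ = _ := by ring
  have k3 : 3 ≤ k := by
    by_contra h
    have : (k + 1) ^ 4 ≤ 3 ^ 4 := by gcongr; omega
    omega
  obtain ⟨b, r, hr, hb⟩ : ∃ b r, r < k ∧ (b + 2) * k + r = l + 3 := by
    have := Nat.div_add_mod (l + 3 - 2 * k) k
    refine ⟨(l + 3 - 2 * k) / k, (l + 3 - 2 * k) % k, Nat.mod_lt _ (by omega), ?_⟩
    have : 2 * k ≤ l := by nlinarith [Nat.pow_le_pow_left k3 3]
    rw [add_mul, mul_comm _ k]; omega
  have hb2 : k * k + 2 * k ≤ b := by
    by_contra h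
    have : (b + 3) * k ≤ (k * k + 2 * k + 2) * k := Nat.mul_le_mul_right _ (by omega)
    nlinarith [Nat.mul_le_mul_left (k * k * k) k3, Nat.mul_le_mul_left (k * k) k3,
      Nat.mul_le_mul_left k k3]
  obtain ⟨q, q0, q1, q2, q3, q4⟩ := exq (by omega) hb2
  obtain ⟨c, hc, hc'⟩ := hC k (by omega)
  refine ⟨_, global (r := r) q q0 q1 q2 q3 ?_ hc, ?_⟩
  · have : 2 ^ (b * k) * 2 ^ (2 * k + r) = 4 * 2 ^ (l + 1) := by
      rw [← pow_add, show b * k + (2 * k + r) = l + 1 + 2 by rw [← hb]; ring, pow_add]; ring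
    have := Nat.mul_le_mul_right (2 ^ (2 * k + r)) q4
    nlinarith
  have e : (2 : ℝ) ^ ((b + 1) * k + r) * 2 ^ k = 8 * 2 ^ l := by
    rw [← pow_add, show (b + 1) * k + r + k = l + 3 by rw [← hb]; ring, pow_add]; ring
  have K3 : (3 : ℝ) ≤ k := by exact_mod_cast k3
  have hY : 1 ≤ (k : ℝ) ^ (1 - 1 / 10 ^ 8 : ℝ) := Real.one_le_rpow (by linarith) (by norm_num)
  have L0 : (0 : ℝ) < l := by exact_mod_cast l0
  have key : (b : ℝ) * (k : ℝ) ^ (1 - 1 / 10 ^ 8 : ℝ) ≤ 4 * Real.logb 2 n ^ (1 - 1 / 10 ^ 9 : ℝ) := by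
    have a1 : (l : ℝ) ^ (1 / 10 ^ 9 : ℝ) ≤ 2 * (k : ℝ) ^ (1 / 10 ^ 8 : ℝ) := by
      calc _ ≤ ((2 * k : ℝ) ^ (4 : ℝ)) ^ (1 / 10 ^ 9 : ℝ) := by
            gcongr
            have : (l : ℝ) ≤ (k + 1) ^ 4 := by exact_mod_cast k2.le
            refine this.trans ?_
            rw [Real.rpow_ofNat]; gcongr; linarith
        _ = 2 ^ (4 / 10 ^ 9 : ℝ) * (k : ℝ) ^ (4 / 10 ^ 9 : ℝ) := by
            rw [← Real.rpow_mul (by positivity), Real.mul_rpow (by norm_num) (by positivity)]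
            norm_num
        _ ≤ 2 ^ (1 : ℝ) * (k : ℝ) ^ (1 / 10 ^ 8 : ℝ) := mul_le_mul
            (Real.rpow_le_rpow_of_exponent_le (by norm_num) (by norm_num))
            (Real.rpow_le_rpow_of_exponent_le (by linarith) (by norm_num)) (by positivity) (by positivity)
        _ = _ := by rw [Real.rpow_one]
    have a2 : (l : ℝ) ^ (1 - 1 / 10 ^ 9 : ℝ) ≤ Real.logb 2 n ^ (1 - 1 / 10 ^ 9 : ℝ) := by gcongr
    have a3 : (b : ℝ) * k ≤ 2 * l := by
      have : b * k ≤ 2 * l := by nlinarith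
      exact_mod_cast this
    refine le_trans ?_ (mul_le_mul_of_nonneg_left a2 (by norm_num))
    rw [Real.rpow_sub (by positivity), Real.rpow_sub L0, Real.rpow_one, Real.rpow_one,
      ← mul_div_assoc, ← mul_div_assoc, div_le_div_iff₀ (by positivity) (by positivity)]
    calc _ ≤ (2 * l : ℝ) * (2 * (k : ℝ) ^ (1 / 10 ^ 8 : ℝ)) := by gcongr
      _ = _ := by ring
  have B1 : (k : ℝ) ≤ b := by exact_mod_cast (by nlinarith : k ≤ b)
  have R1 : (r : ℝ) ≤ k := by exact_mod_cast hr.le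
  have N2 : (2 : ℝ) ^ l ≤ n := by exact_mod_cast n2
  rw [hb]
  push_cast
  rw [pow_add]
  generalize Real.logb 2 n ^ (1 - 1 / 10 ^ 9 : ℝ) = X at *
  generalize (k : ℝ) ^ (1 - 1 / 10 ^ 8 : ℝ) = Y at *
  have P0 : (0 : ℝ) < 2 ^ ((b + 1) * k + r) := by positivity
  have c2 : (2 : ℝ) ^ ((b + 1) * k + r) * c ≤ 8 * n * (C * Y) := by
    calc _ ≤ (2 : ℝ) ^ ((b + 1) * k + r) * (C * 2 ^ k * Y) := by gcongr
      _ = 8 * 2 ^ l * (C * Y) := by rw [← e]; ring
      _ ≤ _ := by gcongr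
  have b4 : (b : ℝ) ≤ 4 * X := by nlinarith
  calc _ ≤ 2 * n + n * 2 ^ 3 * (1000 * b) + (1000 * b) * (8 * n * (C * Y)) := by
        have := Nat.cast_nonneg (α := ℝ) c
        refine add_le_add (add_le_add le_rfl (mul_le_mul (by gcongr) (by linarith) (by positivity)
          (by positivity))) (mul_le_mul (by linarith) c2 (by positivity) (by positivity))
    _ = n * (2 + 8000 * b + 8000 * C * (b * Y)) := by ring
    _ ≤ n * (2 * X + 8000 * (4 * X) + 8000 * C * (4 * X)) := by gcongr; linarith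
    _ = n * X * (32002 + 32000 * C) := by ring
    _ ≤ n * X * (10 ^ 6 * (C + D)) := by gcongr; linarith
    _ = _ := by ring

end Vale.Agent.P344
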