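import Vale.Agent.P344.Batch

namespace Vale.Agent.P344

open Finset Complex

set_option linter.unusedSectionVars false

theorem cost_tens {ι ι' κ κ' : Type} [Fintype ι] [Fintype ι'] [Fintype κ] [Fintype κ']
    [DecidableEq κ] [DecidableEq ι'] {M : Matrix ι ι' ℂ} {N : Matrix κ κ' ℂ} {c d : ℕ}
    (h : Cost (Matrix.of fun (x : ι × κ) (y : ι' × κ) => if x.2 = y.2 then M x.1 y.1 else 0) c)
    (h' : Cost N d) : Cost (Matrix.of fun (x : ι × κ) (y : ι' × κ') => M x.1 y.1 * N x.2 y.2)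
      (c + Fintype.card ι' * d) := by
  convert h.mul ((h'.kron (μ := ι')).sub Prod.swap Prod.swap_injective) using 1
  ext x y
  simp [Matrix.mul_apply, Fintype.sum_prod_type]

theorem cost_sum {J K : Type} [Fintype J] [Fintype K] [DecidableEq J] [DecidableEq K] {c : ℕ}
    (h : Cost (Matrix.of fun (x : (J → ZMod 2) × (K → ZMod 2)) (y : (J → ZMod 2) × (K → ZMod 2)) =>
      if x.2 = y.2 then CM J x.1 y.1 else 0) c) {m : ℕ} (hm : Fintype.card J + Fintype.card K = m) :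
    Cost (CM (Fin m)) (c + 2 ^ m * (2 ^ Fintype.card K * 2)) := by
  refine CM_equiv (J := J ⊕ K) (Fintype.equivFinOfCardEq (by simpa using hm)) ?_
  convert (cost_tens h (Cost.triv (CM K))).sub (Equiv.sumArrowEquivProdArrow _ _ _)
    (Equiv.sumArrowEquivProdArrow _ _ _).injective using 1
  · ext x y
    simp [CM, cc, Fintype.prod_sum_type, Equiv.sumArrowEquivProdArrow]
  · simp [← hm, pow_add, mul_assoc]


theorem stepA {j c : ℕ} (hc : Cost (CM (Fin j)) c) : Cost (CM (Fin (256 * j + 29)))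
    ((2 ^ 37 - 26880) * (2 ^ (255 * j) * c) + 2 ^ (256 * j) * 10 ^ 13 + 2 ^ (256 * j + 29) * (2 ^ 29 * 2)) := by
  have h29 : Fintype.card (Fin 29 → ZMod 2) = 2 ^ 29 := by
    rw [Fintype.card_fun, ZMod.card, Fintype.card_fin]
  have := cost_sum (batch2 hc h29) (m := 256 * j + 29) (by simp)
  simpa only [Fintype.card_fin] using this

theorem stepB {m c : ℕ} (hc : Cost (CM (Fin m)) c) (r : ℕ) : Cost (CM (Fin (m + r)))
    (2 ^ r * c + 2 ^ (m + r) * (2 ^ r * 2)) := by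
  have := cost_sum (K := Fin r) hc.kron (m := m + r) (by simp)
  simpa only [Fintype.card_fin, Fintype.card_fun, ZMod.card] using this

theorem arith (C D c P Q R X Y : ℝ) (hD : 0 < D) (hC : C = 10 ^ 20 * D) (hP : 0 < P) (hQ : 0 < Q) (hR : 0 < R)
    (hb : c ≤ C * Q * X) (r1 : R ≤ D) (hD1 : 1 ≤ D) (j1 : 1 ≤ X) (b1 : (256 - 2 / 10 ^ 5) * X ≤ Y) :
    R * ((2 ^ 37 - 26880) * (P * c) + P * Q * 10 ^ 13 + P * Q * 2 ^ 29 * (2 ^ 29 * 2)) +
      P * Q * 2 ^ 29 * R * (R * 2) ≤ C * (P * Q * 2 ^ 29 * R) * Y := by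
  have hc' : c * (R * P) ≤ C * Q * X * (R * P) := by gcongr
  have h1 : C * ((256 - 2 / 10 ^ 5) * X) ≤ C * Y := by gcongr; rw [hC]; positivity
  have h2 : C * 1 ≤ C * X := by gcongr; rw [hC]; positivity
  have h3 : R * P * Q * (10 ^ 13 + 2 ^ 59 + 2 ^ 30 * R + C * (2 ^ 37 - 26880) * X)
      ≤ R * P * Q * (C * 2 ^ 29 * Y) := by
    gcongr; linarith
  linarith

theorem K_bound : ∃ C : ℝ, 1 ≤ C ∧ ∀ k : ℕ, 1 ≤ k → ∃ c : ℕ, Cost (CM (Fin k)) c ∧
    (c : ℝ) ≤ C * 2 ^ k * (k : ℝ) ^ (1 - 1 / 10 ^ 8 : ℝ) := by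
  obtain ⟨γ, hγ⟩ : ∃ γ : ℝ, γ = 1 - 1 / 10 ^ 8 := ⟨_, rfl⟩
  rw [← hγ]
  have γ0 : 0 ≤ γ := by rw [hγ]; norm_num
  have h256 : (256 - 2 / 10 ^ 5 : ℝ) ≤ 256 ^ γ := by
    have a : Real.log 256 ≤ 6 := by
      rw [show (256 : ℝ) = 2 ^ 8 by norm_num, Real.log_pow]
      have := Real.log_two_lt_d9; push_cast; linarith
    rw [hγ, Real.rpow_sub (by norm_num), Real.rpow_one, div_eq_mul_inv 256,
      ← Real.rpow_neg (by norm_num), Real.rpow_def_of_pos (by norm_num)]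
    have := Real.add_one_le_exp (Real.log 256 * -(1 / 10 ^ 8))
    linarith
  obtain ⟨D, hD1, hD⟩ : ∃ D : ℝ, 1 ≤ D ∧ ∀ r < 285, (2 : ℝ) ^ r ≤ D :=
    ⟨2 ^ 285, one_le_pow₀ one_le_two, fun r hr => pow_le_pow_right₀ one_le_two hr.le⟩
  refine ⟨10 ^ 20 * D, by linarith, fun k => ?_⟩
  induction k using Nat.strong_induction_on with
  | _ k ih =>
  intro hk
  have k1 : (1 : ℝ) ≤ (k : ℝ) ^ γ := Real.one_le_rpow (by exact_mod_cast hk) γ0
  by_cases hs : k < 285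
  · refine ⟨_, Cost.triv _, ?_⟩
    simp only [Fintype.card_fun, ZMod.card, Fintype.card_fin]
    push_cast
    have := hD k hs
    have h2 : (0 : ℝ) < 2 ^ k := by positivity
    calc _ ≤ 10 ^ 20 * D * (2 : ℝ) ^ k * 1 := by nlinarith
      _ ≤ _ := by gcongr
  · obtain ⟨j, r, hr, rfl⟩ : ∃ j r, r < 256 ∧ k = 256 * j + 29 + r :=
      ⟨(k - 29) / 256, (k - 29) % 256, by omega, by omega⟩
    obtain ⟨c, hc, hb⟩ := ih j (by omega) (by omega)
    refine ⟨_, stepB (stepA hc) r, ?_⟩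
    have j1 : (1 : ℝ) ≤ (j : ℝ) ^ γ :=
      Real.one_le_rpow (by exact_mod_cast (by omega : 1 ≤ j)) γ0
    have b1 : (256 - 2 / 10 ^ 5) * (j : ℝ) ^ γ ≤ ((256 * j + 29 + r : ℕ) : ℝ) ^ γ := by
      calc _ ≤ (256 : ℝ) ^ γ * (j : ℝ) ^ γ := by gcongr
        _ = (256 * j : ℝ) ^ γ := (Real.mul_rpow (by norm_num) (by positivity)).symm
        _ ≤ _ := Real.rpow_le_rpow (by positivity) (by push_cast; linarith [Nat.cast_nonneg (α := ℝ) r]) γ0
    have e : (2 : ℝ) ^ (256 * j) = 2 ^ (255 * j) * 2 ^ j := by rw [← pow_add]; congr 1; ring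
    have := arith _ D c (2 ^ (255 * j)) (2 ^ j) (2 ^ r) _ _ (by linarith) rfl (by positivity)
      (by positivity) (by positivity) hb (hD r (by omega)) hD1 j1 b1
    rw [← e, ← pow_add, ← pow_add] at this
    refine le_trans (le_of_eq ?_) this
    rw [Nat.cast_add, Nat.cast_mul, Nat.cast_add, Nat.cast_add, Nat.cast_mul, Nat.cast_sub (by norm_num)]
    simp only [Nat.cast_mul, Nat.cast_pow, Nat.cast_ofNat]

end Vale.Agent.P344
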