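import Vale.Agent.P344.Steps

namespace Vale.Agent.P344

open Finset Complex

set_option linter.unusedSectionVars false

def T3 := {S : Finset B // S.card = 3}
noncomputable instance : DecidableEq T3 := Classical.decEq _
instance : Finite T3 := inferInstanceAs (Finite {S : Finset B // S.card = 3})
noncomputable instance : Fintype T3 := Fintype.ofFinite _

theorem card_T3 : Fintype.card T3 = 560 := by
  rw [← Nat.card_eq_fintype_card]
  change Nat.card {S : Finset B // S.card = 3} = 560
  rw [Nat.card_eq_fintype_card, Fintype.card_subtype, ← powerset_univ, ← powersetCard_eq_filter, card_powersetCard]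
  simp [Nat.choose]

noncomputable def rho (S' : T3) (r : B) : ℂ := (if r ∈ S'.1 then 1 / 2 else 0) - 1 / 6
noncomputable def RR (S S' : T3) : ℂ := (((S.1 ∩ S'.1).card : ℂ) - 1) / 2

theorem rho_id (S S' : T3) : ∑ r, (if r ∈ S.1 then rho S' r else 0) -
    (if Even (S.1 ∩ S'.1).card then RR S S' else 0) = if S = S' then 1 else 0 := by
  have e : ∑ r, (if r ∈ S.1 then rho S' r else 0) = RR S S' := by
    rw [sum_ite_mem, univ_inter]
    simp only [rho, sum_sub_distrib, sum_ite_mem, sum_const, S.2, RR, nsmul_eq_mul]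
    push_cast; ring
  rw [e]
  have h3 : (S.1 ∩ S'.1).card ≤ 3 := (card_le_card inter_subset_left).trans S.2.le
  by_cases h : S = S'
  · subst h; simp [RR, S.2, show ¬ Even 3 by decide]; norm_num
  · have : (S.1 ∩ S'.1).card ≠ 3 := by
      intro h4
      have a := eq_of_subset_of_card_le (inter_subset_left (s₁ := S.1) (s₂ := S'.1)) (by rw [S.2, h4])
      have b := eq_of_subset_of_card_le (inter_subset_right (s₁ := S.1) (s₂ := S'.1)) (by rw [S'.2, h4])
      exact h (Subtype.ext (a.symm.trans b))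
    rw [if_neg h]
    split_ifs with he
    · simp
    · have : (S.1 ∩ S'.1).card = 1 := by rw [Nat.even_iff] at he; omega
      simp [RR, this]

section
variable {V G Γ : Type} [AddCommGroup V] [Module ℂ V] [Fintype G] [AddCommGroup Γ]
  (ac : Γ → (G → V) →ₗ[ℂ] (G → V)) (hadd : ∀ φ ψ f, ac φ (ac ψ f) = ac (φ + ψ) f)
  (hz : ∀ f, ac 0 f = f) (P : ℕ → Γ → Prop) (U : ℕ)
  (hP : ∀ n φ A f, P n φ → 0 ∈ A → Set.range f ⊆ A → Der A (n * U) (Set.range (ac φ f)))

include hP in
theorem prim {n : ℕ} {φ : Γ} {A : Set V} (h : P n φ) (h0 : 0 ∈ A) {g g' : G → V}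
    (hg : ∀ x, Der A 2000 {g x}) (hg' : ∀ x, Der A 2000 {g' x}) :
    Der A (n * U + Fintype.card G * 4001) (Set.range (ac φ g + g')) := by
  refine ((Der.range hg).seq fun A1 h1 h2 => (hP n φ A1 g h (h1 h0) h2).seq fun A2 h3 h4 =>
    Der.range (c := 2001) fun x => ?_).mono le_rfl le_rfl (le_of_eq (by ring))
  exact (Der.mem (h4 ⟨x, rfl⟩)).add1 ((hg' x).mono (h1.trans h3) le_rfl le_rfl)

theorem dm {A : Set V} {f : G → V} (h : Set.range f ⊆ A) (x : G) : Der A 0 {f x} :=
  Der.mem (h ⟨x, rfl⟩)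

include hP in
theorem prim0 {n : ℕ} {φ : Γ} {A : Set V} (h : P n φ) (h0 : 0 ∈ A) {g : G → V}
    (hg : ∀ x, Der A 2000 {g x}) :
    Der A (n * U + Fintype.card G * 4001) (Set.range (ac φ g)) := by
  simpa using prim ac P U hP h h0 hg (g' := 0) fun x => .done (by simpa using h0)

include hadd hz hP in
theorem stage (Ω : Γ) (k : T3 → Γ) (h1 : ∀ S, P 1 (k S)) (h15 : ∀ S, P 15 (Ω - k S))
    (h14 : ∀ S S' : T3, Even (S.1 ∩ S'.1).card → P 14 (Ω - k S - k S')) (h16 : P 16 Ω)
    (h16' : P 16 (-Ω)) (x y : T3 → G → V) (a : T3 × T3 → G → V) (A : Set V) (h0 : 0 ∈ A)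
    (hx : ∀ S, Set.range (x S) ⊆ A) (hy : ∀ S, Set.range (y S) ⊆ A)
    (ha : ∀ p, Set.range (a p) ⊆ A) :
    Der A ((30 * 560 + 256 + 16 * 560 ^ 2) * U + Fintype.card G * (4001 * 1000000))
      ((⋃ S, Set.range (ac (Ω - k S) (x S))) ∪
      (⋃ S, Set.range (ac (Ω - k S) (y S) + ac (Ω - k S - k S) (x S))) ∪
      ⋃ p, Set.range (ac Ω (a p))) := by
  classical
  set Ev : Finset (T3 × T3) := univ.filter fun p => Even (p.1.1 ∩ p.2.1).card with hEv
  set Od : Finset (T3 × T3) := univ.filter fun p => ¬ Even (p.1.1 ∩ p.2.1).card with hOd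
  have hc : Ev.card + Od.card = 560 ^ 2 := by
    rw [hEv, hOd, card_filter_add_card_filter_not, card_univ, Fintype.card_prod, card_T3, sq]
  have cf : ∀ (q : T3 → Prop) [DecidablePred q], (univ.filter q).card ≤ 560 := fun q _ =>
    (card_filter_le _ _).trans (by rw [card_univ, card_T3])
  let X : T3 → G → V := fun S => ac (Ω - k S) (x S)
  let hub : B → G → V := fun r => ac (-Ω) (∑ S ∈ univ.filter (fun S : T3 => r ∈ S.1), X S)
  let a0 : T3 × T3 → G → V := fun p => ac (k p.1) (a p)
  let a2 : T3 × T3 → G → V := fun p => ac (Ω - k p.1 - k p.2) (a0 p - RR p.1 p.2 • x p.1)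
  let Y : T3 → G → V := fun S' => ac (Ω - k S') (y S' + ∑ r, rho S' r • hub r -
    ∑ S ∈ univ.filter (fun S : T3 => Even (S.1 ∩ S'.1).card), a (S, S')) +
    ∑ S ∈ univ.filter (fun S : T3 => Even (S.1 ∩ S'.1).card), a2 (S, S')
  have eY : ∀ S', Y S' = ac (Ω - k S') (y S') + ac (Ω - k S' - k S') (x S') := by
    intro S'
    have e1 : ∀ r, hub r = ∑ S ∈ univ.filter (fun S : T3 => r ∈ S.1), ac (-k S) (x S) := by
      intro r; simp only [hub, X, map_sum, hadd]; congr; funext S; congr 2; abel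
    have e2 : ∀ S, a2 (S, S') = ac (Ω - k S') (a (S, S') - RR S S' • ac (-k S) (x S)) := by
      intro S; simp only [a2, a0, map_sub, map_smul, hadd]
      rw [show Ω - k S - k S' + k S = Ω - k S' by abel, show Ω - k S' + -k S = Ω - k S - k S' by abel]
    have e3 : ∑ r, rho S' r • hub r - ∑ S ∈ univ.filter (fun S : T3 => Even (S.1 ∩ S'.1).card),
        RR S S' • ac (-k S) (x S) = ac (-k S') (x S') := by
      simp only [e1, smul_sum, sum_filter]
      rw [sum_comm, ← sum_sub_distrib]
      have : ∀ S : T3, ((∑ r, rho S' r • if r ∈ S.1 then ac (-k S) (x S) else 0) -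
          if Even (S.1 ∩ S'.1).card then RR S S' • ac (-k S) (x S) else 0) =
          if S = S' then ac (-k S) (x S) else 0 := by
        intro S
        have := congrArg (· • ac (-k S) (x S)) (rho_id S S')
        simpa [sub_smul, sum_smul, ite_smul] using this
      simp only [this]; simp
    simp only [Y, e2]
    rw [← map_sum, ← map_add, sum_sub_distrib, sub_eq_add_neg (Ω - k S'), ← hadd, ← map_add, ← e3]
    congr 1; abel
  have eA : ∀ p, ac (k p.2) (a2 p) + RR p.1 p.2 • X p.1 = ac Ω (a p) := by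
    intro p
    simp only [a2, a0, X, map_sub, map_smul, hadd]
    rw [show k p.2 + (Ω - k p.1 - k p.2 + k p.1) = Ω by abel,
      show k p.2 + (Ω - k p.1 - k p.2) = Ω - k p.1 by abel, sub_add_cancel]
  have up : ∀ {A : Set V} {v : V} {c : ℕ}, Der A c {v} → c ≤ 2000 → Der A 2000 {v} :=
    fun h hc => h.mono le_rfl le_rfl hc
  refine ((Der.famU (B := fun S => Set.range (X S)) fun S =>
      prim0 ac P U hP (h15 S) h0 fun z => up (dm (hx S) z) (by omega)).seq fun A1 s1 hX =>
    (Der.famU (B := fun r => Set.range (hub r)) fun r => prim0 ac P U hP h16' (s1 h0) fun z => ?_).seq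
      fun A2 s2 hH =>
    (Der.fam (B := fun p => Set.range (a0 p)) Ev fun p _ => prim0 ac P U hP (h1 p.1) (s2 (s1 h0))
      fun z => up (dm ((ha p).trans (s1.trans s2)) z) (by omega)).seq fun A3 s3 hA0 =>
    (Der.fam (B := fun p => Set.range (a2 p)) Ev fun p hp => prim0 ac P U hP
      (h14 p.1 p.2 (mem_filter.1 hp).2) (s3 (s2 (s1 h0))) fun z => ?_).seq fun A4 s4 hA2 =>
    ((Der.fam (B := fun p => Set.range (ac Ω (a p))) Ev fun p hp => (prim ac P U hP (h1 p.2)
      (s4 (s3 (s2 (s1 h0)))) (fun z => ?_) (fun z => ?_)).mono le_rfl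
        (le_of_eq (congrArg Set.range (eA p).symm)) le_rfl).union
    ((Der.fam (B := fun p => Set.range (ac Ω (a p))) Od fun p hp => prim0 ac P U hP h16
      (s4 (s3 (s2 (s1 h0)))) fun z =>
        up (dm ((ha p).trans (s1.trans (s2.trans (s3.trans s4)))) z) (by omega)).union
    (Der.famU (B := fun S => Set.range (Y S)) fun S => prim ac P U hP (h15 S)
      (s4 (s3 (s2 (s1 h0)))) (fun z => ?_) (fun z => ?_)))).seq (c' := 0)
      fun A5 s5 hF => .done ?_).mono le_rfl le_rfl ?_
  · rw [Finset.sum_apply]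
    exact up (Der.sum1 (s1 h0) _ fun S _ => dm ((Set.subset_iUnion _ S).trans hX) z)
      (by have := cf (fun S : T3 => r ∈ S.1); omega)
  · exact up ((dm ((Set.subset_biUnion_of_mem hp).trans hA0) z).sub1
      ((dm ((hx p.1).trans (s1.trans (s2.trans s3))) z).smul1 _)) (by omega)
  · exact up (dm ((Set.subset_biUnion_of_mem hp).trans hA2) z) (by omega)
  · exact up ((dm (((Set.subset_iUnion _ p.1).trans hX).trans (s2.trans (s3.trans s4))) z).smul1 _)
      (by omega)
  · simp only [Pi.sub_apply, Pi.add_apply, Finset.sum_apply, Pi.smul_apply]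
    refine up (((dm ((hy S).trans (s1.trans (s2.trans (s3.trans s4)))) z).add1
      (Der.sum1 (s4 (s3 (s2 (s1 h0)))) _ fun r _ => (dm (((Set.subset_iUnion _ r).trans hH).trans
        (s3.trans s4)) z).smul1 _)).sub1 (Der.sum1 (s4 (s3 (s2 (s1 h0)))) _ fun S' _ =>
        dm ((ha _).trans (s1.trans (s2.trans (s3.trans s4)))) z)) ?_
    have := cf (fun S' : T3 => Even (S'.1 ∩ S.1).card)
    simp only [card_univ, Fintype.card_fin]; omega
  · rw [Finset.sum_apply]
    refine up (Der.sum1 (s4 (s3 (s2 (s1 h0)))) _ fun S' hS' => dm ((Set.subset_biUnion_of_mem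
      (u := fun p => Set.range (a2 p)) (x := (S', S)) ?_).trans hA2) z)
      (by have := cf (fun S' : T3 => Even (S'.1 ∩ S.1).card); omega)
    simpa [hEv] using hS'
  · refine Set.union_subset (Set.union_subset (hX.trans (s2.trans (s3.trans (s4.trans s5)))) ?_) ?_
    · simp only [← eY]
      exact (Set.subset_union_right.trans Set.subset_union_right).trans hF
    · refine Set.iUnion_subset fun p => ?_
      by_cases hp : Even (p.1.1 ∩ p.2.1).card
      · exact ((Set.subset_biUnion_of_mem (u := fun p => Set.range (ac Ω (a p)))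
          (show p ∈ Ev by simpa [hEv] using hp)).trans Set.subset_union_left).trans hF
      · exact (((Set.subset_biUnion_of_mem (u := fun p => Set.range (ac Ω (a p)))
          (show p ∈ Od by simpa [hOd] using hp)).trans Set.subset_union_left).trans
          Set.subset_union_right).trans hF
  · rw [card_T3, Fintype.card_fin]
    obtain ⟨N, hN⟩ : ∃ N, N = Fintype.card G := ⟨_, rfl⟩
    rw [← hN]
    have e1 : Ev.card * U + Od.card * U = 560 ^ 2 * U := by rw [← add_mul, hc]
    have e2 : Ev.card * N + Od.card * N = 560 ^ 2 * N := by rw [← add_mul, hc]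
    nlinarith [Nat.zero_le (Od.card * N)]
end

end Vale.Agent.P344
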