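import Vale.Agent.P344.Walsh

namespace Vale.Agent.P344

open Finset Complex

set_option linter.unusedSectionVars false

section
variable {E E' : Type} [AddCommGroup E] [AddCommGroup E']

theorem St.congr {n m : ℕ} {φ ψ : E → ZMod 4} (h : St n φ) (hn : n = m) (e : ∀ ξ, ψ ξ = φ ξ) :
    St m ψ := by rw [funext e, ← hn]; exact h

theorem St.up {n : ℕ} {φ : E → ZMod 4} (h : St n φ) (m : ℕ) : St (n + m) φ := by
  induction h with
  | zero n => exact .zero _
  | step l _ ih => exact (ih.step l).congr (by omega) fun _ => rfl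
  | free l _ ih => exact ih.free l

theorem St.add {n m : ℕ} {φ ψ : E → ZMod 4} (h : St n φ) (h' : St m ψ) :
    St (n + m) (fun ξ => φ ξ + ψ ξ) := by
  induction h with
  | zero n => exact (h'.up n).congr (by omega) (by simp)
  | step l _ ih => exact (ih.step l).congr (by omega) fun _ => by ring
  | free l _ ih => exact (ih.free l).congr rfl fun _ => by ring

theorem four (a : ZMod 4) : 4 * a = 0 := by revert a; decide

theorem St.neg {n : ℕ} {φ : E → ZMod 4} (h : St n φ) : St n (fun ξ => - φ ξ) := by
  induction h with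
  | zero n => exact (St.zero n).congr rfl (by simp)
  | step l _ ih => exact ((ih.step l).free l).congr rfl fun ξ => by
                     linear_combination -four (l4 (l ξ))
  | free l _ ih => exact (ih.free l).congr rfl fun ξ => by linear_combination -four (l4 (l ξ))

theorem St.two {n : ℕ} {φ : E → ZMod 4} (h : St n φ) : St 0 (fun ξ => 2 * φ ξ) := by
  induction h with
  | zero n => exact (St.zero 0).congr rfl (by simp)
  | step l _ ih => exact (ih.free l).congr rfl fun ξ => by ring
  | free l _ ih => exact ih.congr rfl fun ξ => by linear_combination four (l4 (l ξ))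

theorem St.comp {n : ℕ} {φ : E → ZMod 4} (h : St n φ) (m : E' →+ E) : St n (fun ξ => φ (m ξ)) := by
  induction h with
  | zero n => exact .zero n
  | step l _ ih => exact ih.step (l.comp m)
  | free l _ ih => exact ih.free (l.comp m)

theorem St.one (l : E →+ ZMod 2) : St 1 (fun ξ => l4 (l ξ)) :=
  ((St.zero 0).step l).congr rfl (by simp)

theorem St.sum {ι : Type} (s : Finset ι) {n : ℕ} {φ : ι → E → ZMod 4} (h : ∀ i ∈ s, St n (φ i)) :
    St (s.card * n) (fun ξ => ∑ i ∈ s, φ i ξ) := by
  classical
  induction s using Finset.induction_on with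
  | empty => exact (St.zero _).congr rfl (by simp)
  | insert a s ha ih =>
    exact ((h a (mem_insert_self _ _)).add (ih fun i hi => h i (mem_insert_of_mem hi))).congr
      (by rw [card_insert_of_notMem ha]; ring) fun ξ => sum_insert ha
end

abbrev B := Fin 16

def par (S : Finset B) : (B → ZMod 2) →+ ZMod 2 where
  toFun ξ := ∑ i ∈ S, ξ i
  map_zero' := by simp
  map_add' := by simp [sum_add_distrib]

theorem par_apply (S : Finset B) (ξ : B → ZMod 2) : par S ξ = ∑ i ∈ S, ξ i := rfl

def wt (Q : Finset B) (ξ : B → ZMod 2) : ZMod 4 := ∑ i ∈ Q, l4 (ξ i)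

theorem wt_st (Q : Finset B) : St Q.card (wt Q) :=
  (St.sum Q fun i _ => St.one (Pi.evalAddMonoidHom (fun _ => ZMod 2) i)).congr (by simp) fun _ => rfl

theorem two_l4 {ι : Type} (s : Finset ι) (f : ι → ZMod 2) :
    2 * l4 (∑ i ∈ s, f i) = ∑ i ∈ s, 2 * l4 (f i) := by
  classical
  induction s using Finset.induction_on with
  | empty => simp [l4]
  | insert a s ha ih =>
    rw [sum_insert ha, sum_insert ha, ← ih]
    generalize f a = x; generalize ∑ i ∈ s, f i = y; revert x y; decide

theorem Qid {Q : Finset B} (hQ : Q.card = 4) (ξ : B → ZMod 2) :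
    wt Q ξ + ∑ d ∈ Q, l4 (par (Q.erase d) ξ) = 0 := by
  have e : ∀ d ∈ Q, l4 (par (Q.erase d) ξ) = l4 (par Q ξ + ξ d) := by
    intro d hd
    rw [par_apply, par_apply, ← add_sum_erase _ _ hd, add_right_comm, z2, zero_add]
  rw [sum_congr rfl e, wt, ← sum_add_distrib]
  rcases z2c (par Q ξ) with h | h
  · simp only [h, zero_add, ← two_mul]
    rw [← two_l4, ← par_apply, h]; rfl
  · have : ∀ a : ZMod 2, l4 a + l4 (1 + a) = 1 := by decide
    simp only [h, this, sum_const, hQ]; rfl

theorem Qst {Q D : Finset B} (hQ : Q.card = 4) (hD : D ⊆ Q) :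
    St (4 - D.card) (fun ξ => wt Q ξ + ∑ d ∈ D, l4 (par (Q.erase d) ξ)) := by
  refine (St.sum (Q \ D) fun d _ => St.one (par (Q.erase d))).neg.congr
    (by rw [card_sdiff_of_subset hD, hQ, mul_one]) fun ξ => ?_
  have := Qid hQ ξ
  rw [← sum_sdiff hD] at this
  linear_combination this

theorem wt_split (Q : Finset B) (ξ : B → ZMod 2) : wt univ ξ = wt Q ξ + wt Qᶜ ξ :=
  (sum_add_sum_compl _ _).symm

theorem G1 {S : Finset B} (hS : S.card = 3) {d : B} (hd : d ∉ S) :
    St 3 (fun ξ => wt (insert d S) ξ + l4 (par S ξ)) :=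
  (Qst (Q := insert d S) (D := {d}) (by rw [card_insert_of_notMem hd, hS]) (by simp)).congr
    (by simp) fun ξ => by rw [sum_singleton, erase_insert hd]

theorem ex_out (S : Finset B) (h : S.card < 16) : ∃ d, d ∉ S := by
  by_contra hn
  push Not at hn
  rw [eq_univ_of_forall hn] at h
  simp at h

theorem F1 {S : Finset B} (hS : S.card = 3) : St 15 (fun ξ => wt univ ξ + l4 (par S ξ)) := by
  obtain ⟨d, hd⟩ := ex_out S (by omega)
  refine ((G1 hS hd).add (wt_st (insert d S)ᶜ)).congr ?_ fun ξ => ?_
  · rw [card_compl, card_insert_of_notMem hd, hS]; rfl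
  · rw [wt_split (insert d S)]; ring

theorem F2 {S T : Finset B} (hS : S.card = 3) (hT : T.card = 3) (h : Even (S ∩ T).card) :
    St 14 (fun ξ => wt univ ξ + l4 (par S ξ) + l4 (par T ξ)) := by
  have h3 : (S ∩ T).card ≤ 3 := hS ▸ card_le_card inter_subset_left
  have hu := card_union_add_card_inter S T
  obtain h0 | h2 : (S ∩ T).card = 0 ∨ (S ∩ T).card = 2 := by obtain ⟨r, hr⟩ := h; omega
  · obtain ⟨d, hd⟩ := ex_out (S ∪ T) (by omega)
    obtain ⟨c, hc⟩ := ex_out (insert d (S ∪ T)) (by rw [card_insert_of_notMem hd]; omega)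
    simp only [mem_insert, mem_union, not_or] at hd hc
    have dj : Disjoint (insert d S) (insert c T) := by
      rw [card_eq_zero, ← disjoint_iff_inter_eq_empty] at h0
      simp [hd, hc, h0]
    refine (((G1 hS hd.1).add (G1 hT hc.2.2)).add (wt_st (insert d S ∪ insert c T)ᶜ)).congr ?_
      fun ξ => ?_
    · rw [card_compl, card_union_of_disjoint dj, card_insert_of_notMem hd.1,
        card_insert_of_notMem hc.2.2, hS, hT]; rfl
    · rw [wt_split (insert d S ∪ insert c T), wt, sum_union dj, ← wt, ← wt]; ring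
  · obtain ⟨c, hc⟩ := card_eq_one.1 (show (S \ T).card = 1 by
      have := card_sdiff_add_card_inter S T; omega)
    obtain ⟨d, hd⟩ := card_eq_one.1 (show (T \ S).card = 1 by
      have := card_sdiff_add_card_inter T S; rw [inter_comm] at this; omega)
    have hc' := fun x => Finset.ext_iff.1 hc x
    have hd' := fun x => Finset.ext_iff.1 hd x
    simp only [mem_sdiff, mem_singleton] at hc' hd'
    have c1 := (hc' c).2 rfl
    have d1 := (hd' d).2 rfl
    have cd : d ≠ c := by rintro rfl; grind
    have e1 : (S ∪ T).erase d = S := by ext x; simp only [mem_erase, mem_union]; grind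
    have e2 : (S ∪ T).erase c = T := by ext x; simp only [mem_erase, mem_union]; grind
    refine ((Qst (Q := S ∪ T) (D := {d, c}) (by omega) ?_).add (wt_st (S ∪ T)ᶜ)).congr ?_
      fun ξ => ?_
    · intro x; simp only [mem_insert, mem_singleton, mem_union]; grind
    · rw [card_compl, card_pair cd, show (S ∪ T).card = 4 by omega]; rfl
    · rw [wt_split (S ∪ T), sum_pair cd, e1, e2]; ring

theorem St.tens {E G : Type} [AddCommGroup E] [AddCommGroup G] {n : ℕ} {φ : E → ZMod 4}
    (h : St n φ) {S : Finset B} (hS : S.card = 3) (r : B → G →+ E) :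
    St (n * 15) (fun ξ => ∑ i, φ (r i ξ) + φ (∑ i ∈ S, r i ξ)) := by
  have key : ∀ l : E →+ ZMod 2, St 15 (fun ξ => ∑ i, l4 (l (r i ξ)) + l4 (l (∑ i ∈ S, r i ξ))) :=
    fun l => ((F1 hS).comp (AddMonoidHom.pi fun i => l.comp (r i))).congr rfl fun ξ => by
      simp [wt, par_apply]
  induction h with
  | zero n => exact (St.zero _).congr rfl (by simp)
  | step l _ ih => exact ((key l).add ih).congr (by ring) fun ξ => by
                     rw [sum_add_distrib]; ring
  | free l _ ih => exact ((key l).two.add ih).congr (by ring) fun ξ => by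
                     rw [sum_add_distrib, ← mul_sum]; ring

end Vale.Agent.P344
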