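import Vale.Agent.P344.Basic

namespace Vale.Agent.P344

open Finset Complex

set_option linter.unusedSectionVars false

noncomputable def al : ℂ := (1 + I) / 2
noncomputable def be : ℂ := (1 - I) / 2
noncomputable def c1 (a : ZMod 2) : ℂ := if a = 0 then al else be
noncomputable def cc {J : Type} [Fintype J] (z : J → ZMod 2) : ℂ := ∏ j, c1 (z j)
noncomputable def CM (J : Type) [Fintype J] : Matrix (J → ZMod 2) (J → ZMod 2) ℂ :=
  Matrix.of fun x y => cc (x + y)

variable {J J' : Type} [Fintype J] [DecidableEq J] [Fintype J'] [DecidableEq J']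

theorem z2c (a : ZMod 2) : a = 0 ∨ a = 1 := by revert a; decide
theorem z2 (a : ZMod 2) : a + a = 0 := by revert a; decide
theorem zz (x : J → ZMod 2) : x + x = 0 := by funext j; exact z2 _

theorem CM_equiv (e : J ≃ J') {c : ℕ} (h : Cost (CM J) c) : Cost (CM J') c := by
  have := h.sub (fun x : J' → ZMod 2 => x ∘ e) (γ := fun x : J' → ZMod 2 => x ∘ e)
    (e.surjective.injective_comp_right)
  convert this using 1
  ext x y
  simp only [CM, cc, Matrix.of_apply, Matrix.submatrix_apply]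
  exact (e.prod_comp fun j => c1 ((x + y) j)).symm

theorem cost_act {X : Type} [Fintype X] {c : ℕ} (h : Cost (CM J) c) (a : (J → ZMod 2) → X → X)
    (ha : ∀ z z' x, a z (a z' x) = a (z + z') x) (Y : Finset X) (hY : ∀ x, ∃ y ∈ Y, ∃ z, x = a z y)
    {M : Matrix X X ℂ} (hM : ∀ (V : Type) [AddCommGroup V] [Module ℂ V] (f : X → V) x,
      mv M f x = ∑ z, cc z • f (a z x)) : Cost M (Y.card * c) := by
  intro V _ _ A f h0 hf
  refine (Der.fam Y fun y _ => h V A (fun z => f (a z y)) h0 ?_).mono le_rfl ?_ le_rfl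
  · rintro _ ⟨j, rfl⟩; exact hf ⟨_, rfl⟩
  · rintro _ ⟨x, rfl⟩
    obtain ⟨y, hy, z, rfl⟩ := hY x
    refine Set.mem_iUnion₂.2 ⟨y, hy, z, ?_⟩
    rw [hM, mv]
    refine Fintype.sum_equiv (Equiv.addRight z) _ _ fun w => ?_
    simp only [CM, Matrix.of_apply, Equiv.coe_addRight, ha, add_assoc, zz, add_zero, add_comm z]

noncomputable def sg (a : ZMod 2) : ℂ := if a = 0 then 1 else -1
theorem sg_add (a b : ZMod 2) : sg (a + b) = sg a * sg b := by
  rcases z2c a with rfl | rfl <;> rcases z2c b with rfl | rfl <;> simp [sg, z2]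
noncomputable def chi (ξ z : J → ZMod 2) : ℂ := sg (ξ ⬝ᵥ z)

theorem sg_sum {ι : Type} (s : Finset ι) (f : ι → ZMod 2) : sg (∑ i ∈ s, f i) = ∏ i ∈ s, sg (f i) := by
  classical
  induction s using Finset.induction_on with
  | empty => simp [sg]
  | insert a s ha ih => rw [sum_insert ha, prod_insert ha, sg_add, ih]

theorem sum_z2 (f : ZMod 2 → ℂ) : ∑ a, f a = f 0 + f 1 := by
  rw [show (univ : Finset (ZMod 2)) = {0, 1} by decide, sum_pair (by decide)]

theorem chi_orth (z : J → ZMod 2) : ∑ ξ, chi ξ z = if z = 0 then 2 ^ Fintype.card J else 0 := by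
  simp only [chi, dotProduct, sg_sum]
  rw [← Fintype.piFinset_univ, ← prod_univ_sum (fun _ => univ) (fun j a => sg (a * z j))]
  split_ifs with h
  · simp [h, sg]
  · obtain ⟨j, hj⟩ := Function.ne_iff.1 h
    refine prod_eq_zero (mem_univ j) ?_
    rw [sum_z2]; simp only [Pi.zero_apply] at hj; simp [sg, hj]

noncomputable def Op (μ : (J → ZMod 2) → ℂ) : Matrix (J → ZMod 2) (J → ZMod 2) ℂ :=
  Matrix.of fun x y => (∑ ξ, μ ξ * chi ξ (x + y)) / 2 ^ Fintype.card J

theorem eq_of_add {x y : J → ZMod 2} : x + y = 0 ↔ x = y := by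
  rw [add_eq_zero_iff_eq_neg, neg_eq_of_add_eq_zero_left (zz y)]

theorem Op_mul (μ ν : (J → ZMod 2) → ℂ) : Op (μ * ν) = Op μ * Op ν := by
  ext x y
  simp only [Op, Matrix.mul_apply, Matrix.of_apply, div_mul_div_comm, ← sum_div, sum_mul_sum]
  rw [sum_comm, div_eq_div_iff (by simp) (by simp), sum_mul, sum_mul]
  refine sum_congr rfl fun ξ _ => ?_
  rw [sum_comm]
  have : ∀ η, ∑ w, μ ξ * chi ξ (x + w) * (ν η * chi η (w + y)) =
      μ ξ * ν η * sg (ξ ⬝ᵥ x) * sg (η ⬝ᵥ y) * ∑ w, chi w (ξ + η) := by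
    intro η
    rw [mul_sum]
    refine sum_congr rfl fun w _ => ?_
    simp only [chi, dotProduct_add, add_dotProduct, sg_add, dotProduct_comm w]; ring
  simp only [this, chi_orth, eq_of_add, mul_ite, mul_zero, sum_ite_eq, mem_univ, if_true]
  simp only [chi, dotProduct_add, sg_add, Pi.mul_apply]; ring

theorem Op_chi (w x y : J → ZMod 2) : Op (fun ξ => chi ξ w) x y = if y = x + w then 1 else 0 := by
  have : ∀ ξ, chi ξ w * chi ξ (x + y) = chi ξ (y + (x + w)) := by
    intro ξ; simp only [chi, dotProduct_add, sg_add]; ring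
  simp only [Op, Matrix.of_apply, this, chi_orth, eq_of_add]
  split_ifs <;> simp

theorem Op_one : Op (1 : (J → ZMod 2) → ℂ) = 1 := by
  ext x y
  have := Op_chi 0 x y
  simp only [chi, dotProduct_zero, sg, if_true, add_zero] at this
  rw [Matrix.one_apply, if_congr eq_comm rfl rfl, ← this]; rfl

theorem Op_shift (μ : (J → ZMod 2) → ℂ) (w : J → ZMod 2) :
    Op ((fun ξ => chi ξ w) * μ) = (Op μ).submatrix (· + w) id := by
  ext x y
  simp [Op_mul, Matrix.mul_apply, Op_chi]

theorem mv_Op_K (w : J' → J → ZMod 2) {V : Type} [AddCommGroup V] [Module ℂ V]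
    (f : (J → ZMod 2) → V) (x : J → ZMod 2) :
    mv (Op fun ξ => ∏ a, (al + be * chi ξ (w a))) f x = ∑ z, cc z • f (x + ∑ a, z a • w a) := by
  have e : ∀ ξ, ∏ a, (al + be * chi ξ (w a)) = ∑ z : J' → ZMod 2, cc z * chi ξ (∑ a, z a • w a) := by
    intro ξ
    simp only [chi, dotProduct_sum, sg_sum, cc, ← prod_mul_distrib]
    rw [← Fintype.piFinset_univ, ← prod_univ_sum (fun _ => univ)
      (fun a z => c1 z * sg (ξ ⬝ᵥ z • w a))]
    refine prod_congr rfl fun a _ => ?_
    rw [sum_z2]; simp [c1, sg]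
  have e2 : ∀ y, Op (fun ξ => ∏ a, (al + be * chi ξ (w a))) x y =
      ∑ z : J' → ZMod 2, cc z * if y = x + ∑ a, z a • w a then 1 else 0 := by
    intro y
    simp only [← Op_chi, e, Op, Matrix.of_apply, sum_mul, ← mul_div_assoc, ← sum_div, mul_sum]
    rw [sum_comm]; simp only [mul_assoc]
  simp only [mv, e2, sum_smul]
  rw [sum_comm]
  simp

theorem cost_K {c : ℕ} (h : Cost (CM J') c) (w : J' → J → ZMod 2) (pos : J' → J)
    (hw : ∀ a b, w a (pos b) = if a = b then 1 else 0) :
    Cost (Op fun ξ => ∏ a, (al + be * chi ξ (w a))) (2 ^ (Fintype.card J - Fintype.card J') * c) := by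
  have hp : Function.Injective pos := by
    intro a b hab
    have := hw a b
    rw [← hab, hw, if_pos rfl] at this
    by_contra hn; rw [if_neg hn] at this; exact one_ne_zero this
  have := cost_act h (fun z x => x + ∑ a, z a • w a) (fun z z' x => by
      simp only [Pi.add_apply, add_smul, sum_add_distrib]; abel)
    (Fintype.piFinset fun j => if j ∈ univ.map ⟨pos, hp⟩ then {0} else univ) (fun x => by
      refine ⟨x + ∑ a, x (pos a) • w a, ?_, fun a => x (pos a), by rw [add_assoc, zz, add_zero]⟩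
      rw [Fintype.mem_piFinset]
      intro j
      split_ifs with hj
      · obtain ⟨b, -, rfl⟩ := mem_map.1 hj
        simp [hw, z2]
      · simp) (fun V _ _ f x => mv_Op_K w f x)
  convert this using 2
  rw [Fintype.card_piFinset]
  simp only [apply_ite Finset.card, card_singleton, card_univ, ZMod.card]
  rw [prod_ite, prod_const_one, one_mul, prod_const, filter_not, card_sdiff_of_subset (filter_subset _ _)]
  simp only [filter_mem_eq_inter, univ_inter, card_map, card_univ]

noncomputable def e4 (a : ZMod 4) : ℂ := I ^ a.val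
theorem e4_add (a b : ZMod 4) : e4 (a + b) = e4 a * e4 b := by
  rw [e4, e4, e4, ← pow_add, ZMod.val_add, ← pow_eq_pow_mod _ I_pow_four]
def l4 (a : ZMod 2) : ZMod 4 := if a = 0 then 0 else 1
theorem e4_l4 (a : ZMod 2) : e4 (l4 a) = al + be * sg a := by
  unfold l4 sg e4 al be
  split_ifs
  · simp; ring
  · rw [show (1 : ZMod 4).val = 1 from rfl]; ring
theorem e4_l42 (a : ZMod 2) : e4 (2 * l4 a) = sg a := by
  unfold l4 sg e4
  split_ifs
  · simp
  · rw [show (2 * 1 : ZMod 4).val = 2 from rfl]; simp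

/-- step calculus -/
inductive St {E : Type} [AddCommGroup E] : ℕ → (E → ZMod 4) → Prop
  | zero (n : ℕ) : St n 0
  | step {n : ℕ} {φ : E → ZMod 4} (l : E →+ ZMod 2) : St n φ → St (n + 1) (fun ξ => l4 (l ξ) + φ ξ)
  | free {n : ℕ} {φ : E → ZMod 4} (l : E →+ ZMod 2) : St n φ → St n (fun ξ => 2 * l4 (l ξ) + φ ξ)

noncomputable def mult {ι : Type} (φ : (ι → ZMod 2) → ZMod 4) (Ξ : ι × J → ZMod 2) : ℂ :=
  ∏ j, e4 (φ fun i => Ξ (i, j))

variable {ι : Type} [Fintype ι] [DecidableEq ι]

theorem mult_add (φ ψ : (ι → ZMod 2) → ZMod 4) : mult (J := J) (φ + ψ) = mult φ * mult ψ := by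
  funext Ξ; simp [mult, e4_add, prod_mul_distrib]

theorem mult_zero : mult (J := J) (0 : (ι → ZMod 2) → ZMod 4) = 1 := by
  funext Ξ; simp [mult, e4]

theorem hom_dot (l : (ι → ZMod 2) →+ ZMod 2) (ξ : ι → ZMod 2) :
    l ξ = ∑ i, ξ i * l (Pi.single i 1) := by
  conv_lhs => rw [← univ_sum_single ξ, map_sum]
  refine sum_congr rfl fun i _ => ?_
  rcases z2c (ξ i) with h | h <;> simp [h]

theorem St.cost {c n : ℕ} (h : Cost (CM J) c) {φ : (ι → ZMod 2) → ZMod 4} (hφ : St n φ) :
    Cost (Op (mult (J := J) φ)) (n * (2 ^ (Fintype.card (ι × J) - Fintype.card J) * c)) := by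
  have key : ∀ (l : (ι → ZMod 2) →+ ZMod 2) (Ξ : ι × J → ZMod 2) (j : J),
      sg (l fun i => Ξ (i, j)) = chi Ξ (fun p => if j = p.2 then l (Pi.single p.1 1) else 0) := by
    intro l Ξ j
    rw [hom_dot, chi, dotProduct, Fintype.sum_prod_type]
    simp
  induction hφ with
  | zero n =>
    rw [mult_zero, Op_one]
    intro V _ _ A f _ hf
    refine .done ?_
    rintro _ ⟨x, rfl⟩
    exact hf ⟨x, by simp [mv, Matrix.one_apply]⟩
  | @step n φ l _ ih =>
    by_cases hl : ∃ i, l (Pi.single i 1) = 1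
    · obtain ⟨i, hi⟩ := hl
      rw [show (fun ξ => l4 (l ξ) + φ ξ) = (fun ξ => l4 (l ξ)) + φ from rfl, mult_add, Op_mul,
        add_mul, one_mul, add_comm]
      refine Cost.mul ?_ ih
      convert cost_K h (fun j (p : ι × J) => if j = p.2 then l (Pi.single p.1 1) else 0)
        (fun j => (i, j)) (by simp [hi]) using 2
      funext Ξ; simp only [mult, e4_l4, key]
    · have : (fun ξ => l4 (l ξ) + φ ξ) = φ := by
        funext ξ
        have : ∀ i, l (Pi.single i 1) = 0 := fun i => by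
          have := not_exists.1 hl i; revert this; generalize l (Pi.single i 1) = a; revert a; decide
        rw [hom_dot]; simp [this, l4]
      rw [this]; exact ih.le (by gcongr; omega)
  | @free n φ l _ ih =>
    rw [show (fun ξ => 2 * l4 (l ξ) + φ ξ) = (fun ξ => 2 * l4 (l ξ)) + φ from rfl, mult_add]
    have : mult (J := J) (fun ξ => 2 * l4 (l ξ)) =
        fun Ξ => chi Ξ (∑ j, fun p => if j = p.2 then l (Pi.single p.1 1) else 0) := by
      funext Ξ; simp only [mult, e4_l42, key, chi, dotProduct_sum, sg_sum]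
    rw [this, Op_shift]
    exact ih.sub _ Function.injective_id

end Vale.Agent.P344
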